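import Mathlib

namespace Vale.Agent.P047

open Finset

section Ex

variable {Ω Ω' : Type*} [Fintype Ω] [Fintype Ω']

/-- uniform average -/
noncomputable def E (f : Ω → ℝ) : ℝ := (∑ x, f x) / Fintype.card Ω

lemma E_add (f g : Ω → ℝ) : E (fun x => f x + g x) = E f + E g := by
  simp [E, sum_add_distrib, add_div]

lemma E_sub (f g : Ω → ℝ) : E (fun x => f x - g x) = E f - E g := by
  simp [E, sum_sub_distrib, sub_div]

lemma E_neg (f : Ω → ℝ) : E (fun x => - f x) = - E f := by
  simp [E, neg_div]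

lemma E_cmul (c : ℝ) (f : Ω → ℝ) : E (fun x => c * f x) = c * E f := by
  simp [E, ← mul_sum, mul_div_assoc]

lemma E_mulc (c : ℝ) (f : Ω → ℝ) : E (fun x => f x * c) = E f * c := by
  simp only [mul_comm _ c, E_cmul]

lemma E_sum {κ : Type*} (s : Finset κ) (f : κ → Ω → ℝ) :
    E (fun x => ∑ k ∈ s, f k x) = ∑ k ∈ s, E (f k) := by
  simp only [E]
  rw [sum_comm, sum_div]

lemma E_const [Nonempty Ω] (c : ℝ) : E (fun _ : Ω => c) = c := by
  have : (Fintype.card Ω : ℝ) ≠ 0 := by exact_mod_cast Fintype.card_ne_zero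
  simp [E]

lemma E_zero : E (fun _ : Ω => (0 : ℝ)) = 0 := by simp [E]

lemma E_mono {f g : Ω → ℝ} (h : ∀ x, f x ≤ g x) : E f ≤ E g :=
  div_le_div_of_nonneg_right (sum_le_sum fun x _ => h x) (by positivity)

lemma E_nonneg {f : Ω → ℝ} (h : ∀ x, 0 ≤ f x) : 0 ≤ E f :=
  div_nonneg (sum_nonneg fun x _ => h x) (by positivity)

lemma E_congr {f g : Ω → ℝ} (h : ∀ x, f x = g x) : E f = E g := by
  rw [funext h]

lemma E_equiv (e : Ω ≃ Ω') (f : Ω' → ℝ) : E (fun x => f (e x)) = E f := by
  simp only [E]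
  rw [Equiv.sum_comp e f, Fintype.card_congr e]

lemma E_prod (F : Ω → Ω' → ℝ) :
    E (fun p : Ω × Ω' => F p.1 p.2) = E (fun a => E (fun b => F a b)) := by
  simp only [E]
  rw [Fintype.sum_prod_type, ← sum_div, div_div, Fintype.card_prod]
  push_cast
  rw [mul_comm]

lemma E_comm (F : Ω → Ω' → ℝ) :
    E (fun a => E (fun b => F a b)) = E (fun b => E (fun a => F a b)) := by
  simp only [E]
  rw [← sum_div, ← sum_div, sum_comm, div_div, div_div, mul_comm]

lemma E_pi {κ : Type*} [Fintype κ] [DecidableEq κ] (g : κ → Ω → ℝ) :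
    E (fun x : κ → Ω => ∏ k, g k (x k)) = ∏ k, E (g k) := by
  simp only [E]
  rw [prod_div_distrib, prod_univ_sum]
  simp

lemma E_sq_le [Nonempty Ω] (f : Ω → ℝ) : E f ^ 2 ≤ E (fun x => f x ^ 2) := by
  have h := E_nonneg (f := fun x => (f x - E f) ^ 2) fun x => sq_nonneg _
  have e : E (fun x => (f x - E f) ^ 2) = E (fun x => f x ^ 2) - E f ^ 2 := by
    rw [E_congr (g := fun x => f x ^ 2 - (2 * E f) * f x + E f ^ 2) (fun x => by ring),
      E_add, E_sub, E_cmul, E_const]
    ring
  linarith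

lemma E_center [Nonempty Ω] (f : Ω → ℝ) :
    E (fun x => (f x - E f) ^ 2) ≤ E (fun x => f x ^ 2) := by
  rw [E_congr (g := fun x => f x ^ 2 - (2 * E f) * f x + E f ^ 2) (fun x => by ring),
    E_add, E_sub, E_cmul, E_const]
  nlinarith [sq_nonneg (E f)]

lemma E_abs_le [Nonempty Ω] (f : Ω → ℝ) {a : ℝ} (ha : 0 ≤ a)
    (h : E (fun x => f x ^ 2) ≤ a ^ 2) : E (fun x => |f x|) ≤ a := by
  have h1 := E_sq_le (fun x => |f x|)
  simp only [sq_abs] at h1
  exact (abs_le_of_sq_le_sq' (h1.trans h) ha).2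

end Ex

/-- the sign of a bit -/
def sg (b : Bool) : ℝ := if b then -1 else 1

lemma sg_mul_self (b : Bool) : sg b * sg b = 1 := by cases b <;> simp [sg]

lemma abs_sg (b : Bool) : |sg b| = 1 := by cases b <;> simp [sg]

lemma E_sg : E sg = 0 := by simp [E, sg]

lemma sg_not (b : Bool) : sg (!b) = - sg b := by cases b <;> simp [sg]

variable {ι κ : Type*}

def chi (S : Finset ι) (x : ι → Bool) : ℝ := ∏ i ∈ S, sg (x i)

/-- functions of degree at most `d` -/
def V (ι : Type*) (d : ℕ) : Submodule ℝ ((ι → Bool) → ℝ) :=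
  Submodule.span ℝ {f | ∃ S : Finset ι, S.card ≤ d ∧ f = chi S}

lemma chi_mem {d : ℕ} (S : Finset ι) (h : S.card ≤ d) : chi S ∈ V ι d :=
  Submodule.subset_span ⟨S, h, rfl⟩

lemma V_mono {a b : ℕ} (h : a ≤ b) {f : (ι → Bool) → ℝ} (hf : f ∈ V ι a) : f ∈ V ι b := by
  refine Submodule.span_mono ?_ hf
  rintro _ ⟨S, hS, rfl⟩
  exact ⟨S, hS.trans h, rfl⟩

lemma V_const (d : ℕ) (c : ℝ) : (fun _ => c) ∈ V ι d := by
  have h := (V ι d).smul_mem c (chi_mem (∅ : Finset ι) (by simp))
  convert h using 1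
  funext x; simp [chi]

lemma V_add {d : ℕ} {f g : (ι → Bool) → ℝ} (hf : f ∈ V ι d) (hg : g ∈ V ι d) :
    (fun x => f x + g x) ∈ V ι d := (V ι d).add_mem hf hg

lemma V_sub {d : ℕ} {f g : (ι → Bool) → ℝ} (hf : f ∈ V ι d) (hg : g ∈ V ι d) :
    (fun x => f x - g x) ∈ V ι d := (V ι d).sub_mem hf hg

lemma V_cmul {d : ℕ} (c : ℝ) {f : (ι → Bool) → ℝ} (hf : f ∈ V ι d) :
    (fun x => c * f x) ∈ V ι d := (V ι d).smul_mem c hf

lemma V_sum {d : ℕ} {α : Type*} (s : Finset α) {f : α → (ι → Bool) → ℝ}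
    (hf : ∀ a ∈ s, f a ∈ V ι d) : (fun x => ∑ a ∈ s, f a x) ∈ V ι d := by
  have := (V ι d).sum_mem hf
  convert this using 1
  funext x; simp

lemma V_coord (i : ι) : (fun x : ι → Bool => sg (x i)) ∈ V ι 1 := by
  have := chi_mem (d := 1) ({i} : Finset ι) (by simp)
  convert this using 1
  funext x; simp [chi]

lemma chi_mul [DecidableEq ι] (S T : Finset ι) (x : ι → Bool) :
    chi S x * chi T x = chi ((S \ T) ∪ (T \ S)) x := by
  unfold chi
  rw [prod_union disjoint_sdiff_sdiff, ← prod_sdiff (inter_subset_left (s₁ := S) (s₂ := T)),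
    ← prod_sdiff (inter_subset_right (s₁ := S) (s₂ := T)), sdiff_inter_self_left,
    sdiff_inter_self_right]
  have : (∏ i ∈ S ∩ T, sg (x i)) * ∏ i ∈ S ∩ T, sg (x i) = 1 := by
    rw [← prod_mul_distrib]; simp [sg_mul_self]
  linear_combination (∏ i ∈ S \ T, sg (x i)) * (∏ i ∈ T \ S, sg (x i)) * this

lemma V_mul {a b : ℕ} {f g : (ι → Bool) → ℝ} (hf : f ∈ V ι a) (hg : g ∈ V ι b) :
    (fun x => f x * g x) ∈ V ι (a + b) := by
  classical
  induction hf using Submodule.span_induction with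
  | mem f hf =>
    obtain ⟨S, hS, rfl⟩ := hf
    induction hg using Submodule.span_induction with
    | mem g hg =>
      obtain ⟨T, hT, rfl⟩ := hg
      simp only [chi_mul]
      apply chi_mem
      refine (card_union_le _ _).trans (add_le_add ?_ ?_)
      · exact (card_le_card sdiff_subset).trans hS
      · exact (card_le_card sdiff_subset).trans hT
    | zero => simpa using V_const _ 0
    | add g h _ _ hg hh => simpa [mul_add] using V_add hg hh
    | smul c g _ hg => simpa [mul_left_comm] using V_cmul c hg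
  | zero => simpa using V_const _ 0
  | add f h _ _ hf hh => simpa [add_mul] using V_add hf hh
  | smul c f _ hf => simpa [mul_assoc] using V_cmul c hf

lemma V_prod {d : ℕ} {α : Type*} (s : Finset α) {f : α → (ι → Bool) → ℝ}
    (hf : ∀ a ∈ s, f a ∈ V ι d) : (fun x => ∏ a ∈ s, f a x) ∈ V ι (s.card * d) := by
  classical
  induction s using Finset.induction_on with
  | empty => simpa using V_const _ 1
  | insert a s ha ih =>
    simp only [prod_insert ha, card_insert_of_notMem ha]
    have := V_mul (hf a (mem_insert_self _ _)) (ih fun b hb => hf b (mem_insert_of_mem hb))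
    exact V_mono (le_of_eq (by ring)) this

/-- substitution of Boolean functions of degree at most `e` -/
lemma V_subst {d e : ℕ} {f : (ι → Bool) → ℝ} (hf : f ∈ V ι d) (G : (κ → Bool) → ι → Bool)
    (hG : ∀ i, (fun y => sg (G y i)) ∈ V κ e) : (fun y => f (G y)) ∈ V κ (d * e) := by
  induction hf using Submodule.span_induction with
  | mem f hf =>
    obtain ⟨S, hS, rfl⟩ := hf
    exact V_mono (Nat.mul_le_mul_right _ hS) (V_prod S fun i _ => hG i)
  | zero => simpa using V_const _ 0
  | add f h _ _ hf hh => simpa using V_add hf hh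
  | smul c f _ hf => simpa using V_cmul c hf

lemma V_comp {d : ℕ} {f : (ι → Bool) → ℝ} (hf : f ∈ V ι d) (e : ι → κ) :
    (fun y : κ → Bool => f (fun i => y (e i))) ∈ V κ d := by
  simpa using V_subst hf (fun y i => y (e i)) fun i => V_coord (e i)

variable [Fintype ι] [DecidableEq ι]

noncomputable def hat (f : (ι → Bool) → ℝ) (S : Finset ι) : ℝ := E fun x => f x * chi S x

lemma E_chi (S : Finset ι) : E (chi S) = if S = ∅ then 1 else 0 := by
  have e : chi S = fun x => ∏ i, (if i ∈ S then sg else fun _ => 1) (x i) := by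
    funext x
    simp only [chi, ite_apply]
    rw [prod_ite_mem]; simp
  rw [e, E_pi]
  split_ifs with h
  · simp [h, E_const]
  · obtain ⟨i, hi⟩ := nonempty_iff_ne_empty.mpr h
    exact prod_eq_zero (mem_univ i) (by simp [hi, E_sg])

lemma hat_chi (S T : Finset ι) : hat (chi S) T = if S = T then 1 else 0 := by
  simp only [hat, chi_mul]
  rw [E_chi]
  congr 1
  rw [union_eq_empty, sdiff_eq_empty_iff_subset, sdiff_eq_empty_iff_subset, eq_iff_iff]
  exact ⟨fun h => Subset.antisymm h.1 h.2, fun h => by simp [h]⟩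

lemma inversion (f : (ι → Bool) → ℝ) (x : ι → Bool) : f x = ∑ S, hat f S * chi S x := by
  have h1 : ∀ y : ι → Bool, ∑ S : Finset ι, chi S y * chi S x =
      if y = x then (Fintype.card (ι → Bool) : ℝ) else 0 := by
    intro y
    have : ∑ S : Finset ι, chi S y * chi S x = ∏ i, (1 + sg (y i) * sg (x i)) := by
      rw [prod_one_add]
      simp only [powerset_univ, chi, prod_mul_distrib]
    rw [this]
    split_ifs with h
    · simp [h, sg_mul_self]; norm_num
    · obtain ⟨i, hi⟩ := Function.ne_iff.mp h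
      refine prod_eq_zero (mem_univ i) ?_
      cases hy : y i <;> cases hx : x i <;> simp_all [sg]
  simp only [hat, ← E_mulc, ← E_sum, mul_assoc, ← mul_sum, h1]
  have : (Fintype.card (ι → Bool) : ℝ) ≠ 0 := by exact_mod_cast Fintype.card_ne_zero
  simp only [E, mul_ite, mul_zero, sum_ite_eq', mem_univ, if_true]
  field_simp

lemma mem_V_iff {d : ℕ} {f : (ι → Bool) → ℝ} :
    f ∈ V ι d ↔ ∀ S : Finset ι, d < S.card → hat f S = 0 := by
  constructor
  · intro hf S hS
    induction hf using Submodule.span_induction with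
    | mem f hf =>
      obtain ⟨T, hT, rfl⟩ := hf
      rw [hat_chi, if_neg]
      rintro rfl
      omega
    | zero => simp [hat, E_zero]
    | add f h _ _ hf hh =>
      simp only [hat, Pi.add_apply, add_mul, E_add] at *
      rw [hf, hh, add_zero]
    | smul c f _ hf =>
      simp only [hat, Pi.smul_apply, smul_eq_mul, mul_assoc, E_cmul] at *
      rw [hf, mul_zero]
  · intro h
    rw [funext (inversion f)]
    refine V_sum _ fun S _ => ?_
    by_cases hS : d < S.card
    · simpa [h S hS] using V_const _ 0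
    · exact V_cmul _ (chi_mem S (not_lt.mp hS))

lemma V_top (f : (ι → Bool) → ℝ) : f ∈ V ι (Fintype.card ι) :=
  mem_V_iff.mpr fun S hS => absurd (card_le_univ S) (not_le.mpr hS)

/-- the sum of the coordinates -/
def Ssum (x : ι → Bool) : ℝ := ∑ i, sg (x i)

omit [DecidableEq ι] in
lemma Ssum_mem : (Ssum : (ι → Bool) → ℝ) ∈ V ι 1 := V_sum _ fun i _ => V_coord i

lemma E_coord (i : ι) : E (fun x : ι → Bool => sg (x i)) = 0 := by
  have := E_chi ({i} : Finset ι)
  simp only [singleton_ne_empty, if_false] at this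
  rw [← this]
  exact E_congr fun x => by simp [chi]

lemma E_Ssum : E (Ssum : (ι → Bool) → ℝ) = 0 := by
  have : E (fun x : ι → Bool => ∑ i, sg (x i)) = 0 := by
    rw [E_sum]; simp [E_coord]
  exact this

lemma E_Ssum_sq : E (fun x : ι → Bool => Ssum x ^ 2) = Fintype.card ι := by
  simp only [Ssum, sq, sum_mul_sum]
  rw [E_sum]
  have : ∀ i : ι, E (fun x : ι → Bool => ∑ j, sg (x i) * sg (x j)) = 1 := by
    intro i
    rw [E_sum]
    have h2 : ∀ j : ι, E (fun x : ι → Bool => sg (x i) * sg (x j)) = if i = j then 1 else 0 := by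
      intro j
      have := hat_chi ({i} : Finset ι) {j}
      simpa [hat, chi] using this
    simp [h2]
  simp [this]

omit [DecidableEq ι] in
lemma abs_Ssum_le (x : ι → Bool) : |Ssum x| ≤ Fintype.card ι := by
  refine (abs_sum_le_sum_abs _ _).trans ?_
  simp [abs_sg]

omit [DecidableEq ι] in
lemma Ssum_int (x : ι → Bool) : ∃ z : ℤ, Ssum x = z := by
  refine ⟨∑ i, if x i then -1 else 1, ?_⟩
  push_cast
  rfl

variable [Fintype κ] [DecidableEq κ]

lemma E_sumType (F : (ι → Bool) → (κ → Bool) → ℝ) :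
    E (fun x : ι ⊕ κ → Bool => F (fun i => x (Sum.inl i)) (fun k => x (Sum.inr k))) =
      E (fun a => E (fun b => F a b)) := by
  rw [← E_prod]
  exact E_equiv (Equiv.sumArrowEquivProdArrow ι κ Bool) (fun p => F p.1 p.2)

omit [DecidableEq ι] [DecidableEq κ] in
lemma Ssum_sumType (x : ι ⊕ κ → Bool) :
    Ssum x = Ssum (fun i => x (Sum.inl i)) + Ssum (fun k => x (Sum.inr k)) := by
  simp [Ssum]

end Vale.Agent.P047
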