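import Vale.Agent.P047.Round

namespace Vale.Agent.P047

open Finset Filter Topology

lemma hi_le (α : Type*) [Fintype α] [DecidableEq α] (g : ℕ) (hg : Fintype.card α = 100 * g) :
    (hi α (51 * g) : ℝ) + 1 ≤ 2 * (0.99 ^ g * 2 ^ Fintype.card α) := by
  have h1 : (hi α (51 * g) : ℝ) * (51 / 49) ^ (51 * g) ≤ (1 + 51 / 49) ^ Fintype.card α := by
    have e : (1 + 51 / 49 : ℝ) ^ Fintype.card α = ∑ T : Finset α, (51 / 49 : ℝ) ^ T.card := by
      have := prod_one_add (f := fun _ : α => (51 / 49 : ℝ)) univ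
      simpa only [prod_const, card_univ, powerset_univ] using this
    rw [e, hi, ← nsmul_eq_mul, ← sum_const]
    refine le_trans (sum_le_sum fun T hT => ?_) (sum_le_sum_of_subset_of_nonneg
      (filter_subset (fun T : Finset α => 51 * g < T.card) _) fun _ _ _ => by positivity)
    exact pow_le_pow_right₀ (by norm_num) (mem_filter.mp hT).2.le
  rw [hg] at h1 ⊢
  have h2 : (1 + 51 / 49 : ℝ) ^ (100 * g) ≤ (0.99 ^ g * 2 ^ (100 * g)) * (51 / 49) ^ (51 * g) := by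
    rw [pow_mul, pow_mul, pow_mul, ← mul_pow, ← mul_pow]
    exact pow_le_pow_left₀ (by positivity) (by norm_num) g
  have h3 := le_of_mul_le_mul_right (h1.trans h2) (by positivity)
  have h4 : (1 : ℝ) ≤ 0.99 ^ g * 2 ^ (100 * g) := by
    rw [pow_mul, ← mul_pow]
    exact one_le_pow₀ (by norm_num)
  linarith

lemma ev_small (A : ℝ) (m : ℕ) {ε : ℝ} (hε : 0 < ε) :
    ∀ᶠ j : ℕ in atTop, A * ((3 : ℝ) ^ j) ^ m * 0.99 ^ (3 ^ j) ≤ ε := by
  have h1 := tendsto_pow_const_mul_const_pow_of_abs_lt_one m (r := 0.99) (by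
    rw [abs_lt]; constructor <;> norm_num)
  have h2 : Tendsto (fun j : ℕ => 3 ^ j) atTop atTop :=
    tendsto_pow_atTop_atTop_of_one_lt (by norm_num)
  have h3 := (h1.comp h2).const_mul A
  rw [mul_zero] at h3
  filter_upwards [h3.eventually (ge_mem_nhds hε)] with j hj
  simpa [mul_assoc] using hj

lemma ev_big (A : ℝ) : ∀ᶠ j : ℕ in atTop, A ≤ (3 : ℝ) ^ j :=
  (tendsto_pow_atTop_atTop_of_one_lt (by norm_num : (1 : ℝ) < 3)).eventually_ge_atTop A

/-- the leftover term is eventually small -/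
lemma ev_left (γ C J : ℕ) (hγ : 0 < γ) (hC : 0 < C) {ε : ℝ} (hε : 0 < ε) :
    ∀ᶠ j : ℕ in atTop, ∀ (α : Type) [Fintype α] [DecidableEq α],
      Fintype.card α = 100 * (γ * 9 ^ j) →
      (9 : ℝ) ^ j * (((2 * Fintype.card α + 1) *
        thr α (51 * (γ * 9 ^ j)) ((2 * (C * 9 ^ j) ^ 3 ^ j) ^ J) : ℕ) / 2 ^ Fintype.card α) ≤ ε := by
  set A : ℝ := 30 * (300 * γ) ^ 4 with hA
  have hA0 : 0 < A := by positivity
  filter_upwards [ev_small ((2 * C) ^ (2 * J + 5)) (2 * (2 * J + 5)) (lt_min one_pos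
    (div_pos hε hA0))] with j hj α _ _ hα
  have h1 := hi_le α _ hα
  set D : ℕ := 3 ^ j with hD
  have hD1 : 1 ≤ D := Nat.one_le_pow _ _ (by norm_num)
  have h9 : (9 : ℕ) ^ j = D * D := by rw [hD, ← mul_pow]; norm_num
  have h9' : (9 : ℝ) ^ j = (D : ℝ) ^ 2 := by exact_mod_cast (h9.trans (sq D).symm)
  have h3' : (3 : ℝ) ^ j = D := by rw [hD]; push_cast; rfl
  rw [h3'] at hj
  set u : ℝ := (D : ℝ) ^ 2 with hu
  have hD1' : (1 : ℝ) ≤ D := by exact_mod_cast hD1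
  have hu1 : 1 ≤ u := one_le_pow₀ hD1'
  have hγ' : (1 : ℝ) ≤ γ := by exact_mod_cast hγ
  have hC' : (1 : ℝ) ≤ C := by exact_mod_cast hC
  have hγu : 1 ≤ γ * u := one_le_mul_of_one_le_of_one_le hγ' hu1
  have hg : (Fintype.card α : ℝ) = 100 * (γ * u) := by rw [hα]; push_cast; rw [h9']
  set B : ℝ := 2 * C * u with hB
  have hB1 : u ≤ B := by rw [hB]; nlinarith
  have hq : (2 * (C * u) ^ D) ^ J ≤ (B ^ D) ^ J := by
    refine pow_le_pow_left₀ (by positivity) ?_ J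
    rw [hB, mul_assoc 2, mul_pow 2]
    refine mul_le_mul_of_nonneg_right ?_ (by positivity)
    simpa using pow_le_pow_right₀ (by norm_num : (1 : ℝ) ≤ 2) hD1
  have hρ : (0.99 : ℝ) ^ (γ * 9 ^ j) ≤ (0.99 ^ D) ^ D := by
    rw [← pow_mul, ← h9]
    exact pow_le_pow_of_le_one (by norm_num) (by norm_num) (Nat.le_mul_of_pos_left _ hγ)
  have hu5 : u ^ 5 ≤ (B ^ D) ^ 5 := by
    refine pow_le_pow_left₀ (by positivity) (hB1.trans ?_) 5
    simpa using pow_le_pow_right₀ (hu1.trans hB1) hD1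
  have hbr : B ^ (2 * J + 5) * 0.99 ^ D ≤ min 1 (ε / A) := by
    refine le_trans (le_of_eq ?_) hj
    rw [hB, mul_pow (2 * C : ℝ), hu, ← pow_mul]
  have hbr2 : (B ^ (2 * J + 5) * 0.99 ^ D) ^ D ≤ ε / A := by
    refine le_trans ?_ (hbr.trans (min_le_right _ _))
    simpa using pow_le_pow_of_le_one (by positivity) (hbr.trans (min_le_left _ _)) hD1
  rw [le_div_iff₀ hA0] at hbr2
  refine le_trans ?_ hbr2
  simp only [thr]
  push_cast
  rw [h9', ← mul_div_assoc, div_le_iff₀ (by positivity)]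
  set g : ℝ := (Fintype.card α : ℝ) with hgd
  have hg1 : 2 * g + 1 ≤ 300 * γ * u := by rw [hg]; nlinarith
  have hg2 : g + 1 ≤ 300 * γ * u := by rw [hg]; nlinarith
  have hg3 : g + 2 ≤ 300 * γ * u := by rw [hg]; nlinarith
  have hg0 : 0 ≤ g := by positivity
  calc u * ((2 * g + 1) * (3 * (5 * ((2 * (C * u) ^ D) ^ J) ^ 2 * (g + 1) ^ 2) *
        (((hi α (51 * (γ * 9 ^ j)) : ℝ) + 1) * (g + 2))))
      ≤ u * ((300 * γ * u) * (3 * (5 * ((B ^ D) ^ J) ^ 2 * (300 * γ * u) ^ 2) *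
        ((2 * ((0.99 ^ D) ^ D * 2 ^ Fintype.card α)) * (300 * γ * u)))) := by
        gcongr
        refine h1.trans ?_
        gcongr
    _ = (u ^ 5 * (((B ^ D) ^ J) ^ 2 * (0.99 ^ D) ^ D)) * A * 2 ^ Fintype.card α := by
        rw [hA]; ring
    _ ≤ ((B ^ D) ^ 5 * (((B ^ D) ^ J) ^ 2 * (0.99 ^ D) ^ D)) * A * 2 ^ Fintype.card α := by
        gcongr
    _ = _ := by ring_nf

/-- a block state with level degree ratio `θ` and error ratio `η` -/
def Blk (θ η : ℝ) : Prop :=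
  ∃ (ι : Type) (_ : Fintype ι) (_ : DecidableEq ι) (X : (ι → Bool) → ℝ) (k b c : ℕ)
    (β err m2 a : ℝ), 0 < Fintype.card ι ∧ 1 ≤ b ∧ 0 < c ∧ St X k b c β err m2 a ∧
      k ≤ θ * Fintype.card ι ∧ err ≤ η * Fintype.card ι

lemma Blk_one : Blk 1 0 :=
  ⟨Unit, inferInstance, inferInstance, Ssum, 1, 1, 1, 1, 0, 1, 1, by simp, le_rfl, one_pos,
    St_unit 1 1 le_rfl, by simp, by simp⟩

lemma Blk.step {θ η θ' δ : ℝ} (h : Blk θ η) (hη : 0 ≤ η) (γ₁ γ₂ : ℕ) (h₁ : 0 < γ₁) (hδ : 0 < δ)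
    (hθ₁ : 100 * γ₁ < θ' * (100 * γ₁ + γ₂))
    (hθ₂ : 51 * γ₁ + θ * γ₂ ≤ θ' * (100 * γ₁ + γ₂)) : Blk θ' (2 * η + δ) := by
  obtain ⟨ι, _, _, X, k, b, c, β, err, m2, a, hn, hb, hc, hX, hk, herr⟩ := h
  set n := Fintype.card ι with hnd
  have hn' : (1 : ℝ) ≤ n := by exact_mod_cast hn
  have h₁' : (1 : ℝ) ≤ γ₁ := by exact_mod_cast h₁
  have h₂' : (0 : ℝ) ≤ γ₂ := by positivity
  set C₂ : ℝ := |100 * γ₁ * n + γ₂ * a| + 3 * (100 * γ₁ * n + γ₂ * m2) ^ 2 with hC₂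
  obtain ⟨N₀, hN₀⟩ := exists_nat_ge (max 1 (max (100 * γ₁ * n + γ₂ * β) (2 * C₂ / δ)))
  have hN1 : (1 : ℝ) ≤ N₀ := (le_max_left _ _).trans hN₀
  have hN2 : 100 * γ₁ * n + γ₂ * β ≤ N₀ := ((le_max_left _ _).trans (le_max_right _ _)).trans hN₀
  have hN3 : 2 * C₂ / δ ≤ N₀ := ((le_max_right _ _).trans (le_max_right _ _)).trans hN₀
  have hN0 : 0 < N₀ := by exact_mod_cast (zero_lt_one.trans_le hN1)
  obtain ⟨J, hJ⟩ := exists_nat_ge (max 1 (6 * N₀ ^ 2 / δ))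
  have hJ1 : (1 : ℝ) ≤ J := (le_max_left _ _).trans hJ
  have hJ2 : 6 * N₀ ^ 2 / δ ≤ J := (le_max_right _ _).trans hJ
  have hJ0 : 0 < J := by exact_mod_cast (zero_lt_one.trans_le hJ1)
  set σ : ℝ := θ' * (100 * γ₁ + γ₂) - 100 * γ₁ with hσ
  have hσ0 : 0 < σ := by linarith
  obtain ⟨j, hj1, hj2⟩ := ((ev_left (γ₁ * n) (c * N₀) J (by positivity) (by positivity)
    (ε := δ / (6 * N₀ ^ 2)) (by positivity)).and (ev_big (J * b / σ))).exists
  obtain ⟨α, _, _, hα, hA⟩ := St_Ssum (100 * (γ₁ * n * 9 ^ j)) b c hb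
  obtain ⟨κ, _, _, XB, hκ, hB, -⟩ := hX.copies (γ₂ * 9 ^ j)
  have hj1' := hj1 α hα
  rw [← hα] at hA
  set u : ℝ := 9 ^ j with hu
  have hu1 : 1 ≤ u := one_le_pow₀ (by norm_num)
  have hu3 : u = 3 ^ j * 3 ^ j := by rw [hu, ← mul_pow]; norm_num
  have hg : (Fintype.card α : ℝ) = 100 * γ₁ * n * u := by rw [hα]; push_cast; ring
  have hcard : (Fintype.card (α ⊕ κ) : ℝ) = (100 * γ₁ + γ₂) * n * u := by
    rw [Fintype.card_sum, Nat.cast_add, hg, hκ]; push_cast; ring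
  obtain ⟨X', c', β', m2', a', hc', hX'⟩ := round hA hB hc j J (N₀ * 9 ^ j)
    (51 * (γ₁ * n * 9 ^ j)) hJ0 (by positivity) (by
      have := mul_le_mul_of_nonneg_right hN2 (by positivity : 0 ≤ u)
      rw [hg]; push_cast; linarith)
  have hpos : 0 < Fintype.card (α ⊕ κ) := by
    have : (0 : ℝ) < Fintype.card (α ⊕ κ) := by rw [hcard]; positivity
    exact_mod_cast this
  refine ⟨α ⊕ κ, inferInstance, inferInstance, X', _, _, c', β', _, m2', a', hpos, hpos, hc', hX',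
    ?_, ?_⟩
  · rw [Nat.cast_max, hcard]
    refine max_le ?_ ?_
    · push_cast
      rw [hg]
      rw [div_le_iff₀ hσ0] at hj2
      have h3 : (0 : ℝ) < 3 ^ j := by positivity
      have h4 : J * (3 ^ j * b) ≤ σ * u := by
        have := mul_le_mul_of_nonneg_left hj2 h3.le
        rw [hu3]; linarith
      have h5 : σ * u ≤ σ * u * n := le_mul_of_one_le_right (by positivity) hn'
      have h6 : θ' * ((100 * γ₁ + γ₂) * n * u) = 100 * γ₁ * n * u + σ * u * n := by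
        rw [hσ]; ring
      linarith
    · push_cast
      have h4 : γ₂ * u * k ≤ γ₂ * u * (θ * n) := mul_le_mul_of_nonneg_left hk (by positivity)
      have h5 := mul_le_mul_of_nonneg_right hθ₂ (by positivity : 0 ≤ n * u)
      linarith
  · rw [hcard]
    have hL : ((N₀ * 9 ^ j : ℕ) / 3 ^ j : ℝ) ^ 2 = N₀ ^ 2 * u := by
      push_cast
      rw [← hu, hu3]; field_simp
    rw [hL]
    have e1 : (Fintype.card α + (γ₂ * 9 ^ j : ℕ) * a + 3 * (Fintype.card α +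
        (γ₂ * 9 ^ j : ℕ) * m2) ^ 2) / (3 * (N₀ ^ 2 * u)) ≤ δ / 6 * u := by
      rw [div_le_iff₀ (by positivity), hg]
      push_cast
      rw [← hu]
      have h4 : 100 * γ₁ * n * u + γ₂ * u * a ≤ |100 * γ₁ * n + γ₂ * a| * u ^ 2 := by
        have := le_abs_self (100 * γ₁ * n + γ₂ * a)
        have h0 := abs_nonneg (100 * γ₁ * n + γ₂ * a)
        calc _ = (100 * γ₁ * n + γ₂ * a) * u := by ring
          _ ≤ |100 * γ₁ * n + γ₂ * a| * u := by gcongr
          _ ≤ _ := by gcongr; exact le_self_pow₀ hu1 (by norm_num)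
      have h5 : C₂ ≤ δ / 2 * N₀ ^ 2 := by
        rw [div_le_iff₀ hδ] at hN3
        have : (N₀ : ℝ) * δ ≤ N₀ ^ 2 * δ := by gcongr; exact le_self_pow₀ hN1 (by norm_num)
        linarith
      calc _ ≤ C₂ * u ^ 2 := by rw [hC₂]; linarith
        _ ≤ δ / 2 * N₀ ^ 2 * u ^ 2 := by gcongr
        _ = _ := by ring
    have e2 : N₀ ^ 2 * u / J ≤ δ / 6 * u := by
      rw [div_le_iff₀ (by positivity)]
      rw [div_le_iff₀ hδ] at hJ2
      have := mul_le_mul_of_nonneg_right hJ2 (by positivity : 0 ≤ u)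
      linarith
    have e3 : ((N₀ * 9 ^ j : ℕ) : ℝ) ^ 2 * (((2 * Fintype.card α + 1) *
        thr α (51 * (γ₁ * n * 9 ^ j)) ((2 * (c * (N₀ * 9 ^ j)) ^ 3 ^ j) ^ J) : ℕ) /
          2 ^ Fintype.card α) ≤ δ / 6 * u := by
      rw [← mul_assoc c]
      rw [le_div_iff₀ (by positivity)] at hj1'
      have := mul_le_mul_of_nonneg_left hj1' (by positivity : 0 ≤ u / 6)
      refine le_trans (le_of_eq ?_) (this.trans (le_of_eq (by ring)))
      rw [Nat.cast_mul N₀, Nat.cast_pow, Nat.cast_ofNat, ← hu]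
      ring
    have e4 : ((γ₂ * 9 ^ j : ℕ) : ℝ) * err ≤ η * ((100 * γ₁ + γ₂) * n * u) := by
      push_cast
      rw [← hu]
      have h4 : γ₂ * u * err ≤ γ₂ * u * (η * n) := mul_le_mul_of_nonneg_left herr (by positivity)
      have h5 : 0 ≤ η * (100 * γ₁ * n * u) := by positivity
      linarith
    have e5 : δ * u ≤ δ * ((100 * γ₁ + γ₂) * n * u) := by
      gcongr
      exact le_mul_of_one_le_left (by positivity)
        (one_le_mul_of_one_le_of_one_le (by linarith) hn')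
    linarith

theorem Blk_final : Blk 0.59 (1 / 1000000) := by
  have h1 := Blk_one.step le_rfl 17 800 (θ' := 0.69) (δ := 1 / 4000000) (by norm_num)
    (by norm_num) (by norm_num) (by norm_num)
  have h2 := h1.step (by norm_num) 29 2100 (θ' := 0.59) (δ := 1 / 2000000) (by norm_num)
    (by norm_num) (by norm_num) (by norm_num)
  convert h2 using 1
  norm_num

end Vale.Agent.P047
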