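import Vale.Agent.P047.Sunflower
import Vale.Agent.P047.Cube

namespace Vale.Agent.P047

open Finset

section Extract

variable {Ω Q : Type*} [DecidableEq Ω]

def ind (U : Finset Ω) : Ω → ℝ := fun x => if x ∈ U then 1 else 0

lemma ind_union {U W : Finset Ω} (h : Disjoint U W) : ind (U ∪ W) = ind U + ind W := by
  funext x
  simp only [ind, mem_union, Pi.add_apply]
  by_cases h1 : x ∈ U
  · have : x ∉ W := disjoint_left.mp h h1
    simp [h1, this]
  · simp [h1]

lemma extract [Fintype Q] [Nonempty Q] (K : Submodule ℝ (Ω → ℝ)) (N : ℕ)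
    (h : ∀ A : Finset Ω, N < A.card → ∃ U : Q → Finset Ω, (∀ c, U c ⊆ A) ∧
      (∀ c, (U c).Nonempty) ∧ (∀ c c', c ≠ c' → Disjoint (U c) (U c')) ∧
      ∀ c c', ind (U c) - ind (U c') ∈ K) (A : Finset Ω) :
    ∃ C : Q → Finset Ω, (∀ c, C c ⊆ A) ∧ (∀ c c', c ≠ c' → Disjoint (C c) (C c')) ∧
      (∀ c c', ind (C c) - ind (C c') ∈ K) ∧ (A \ univ.biUnion C).card ≤ N := by
  induction hn : A.card using Nat.strong_induction_on generalizing A with
  | _ n ih =>
    by_cases hA : N < A.card
    · obtain ⟨U, h1, h2, h3, h4⟩ := h A hA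
      have hlt : (A \ univ.biUnion U).card < n := by
        rw [← hn]
        apply card_lt_card
        obtain ⟨x, hx⟩ := h2 (Classical.arbitrary Q)
        refine ⟨sdiff_subset, fun hsub => ?_⟩
        have := mem_sdiff.mp (hsub (h1 _ hx))
        exact this.2 (mem_biUnion.mpr ⟨_, mem_univ _, hx⟩)
      obtain ⟨C, c1, c2, c3, c4⟩ := ih _ hlt _ rfl
      have hUC : ∀ c c', Disjoint (U c) (C c') := by
        intro c c'
        rw [disjoint_left]
        intro x hx hx'
        exact (mem_sdiff.mp (c1 c' hx')).2 (mem_biUnion.mpr ⟨_, mem_univ _, hx⟩)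
      refine ⟨fun c => U c ∪ C c, fun c => union_subset (h1 c) ((c1 c).trans sdiff_subset),
        ?_, ?_, ?_⟩
      · intro c c' hcc
        rw [disjoint_union_left, disjoint_union_right, disjoint_union_right]
        exact ⟨⟨h3 c c' hcc, hUC c c'⟩, (hUC c' c).symm, c2 c c' hcc⟩
      · intro c c'
        rw [ind_union (hUC c c), ind_union (hUC c' c')]
        have := K.add_mem (h4 c c') (c3 c c')
        convert this using 1
        abel
      · refine le_trans (card_le_card ?_) c4
        intro x hx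
        simp only [mem_sdiff, mem_biUnion, mem_univ, true_and, mem_union, not_exists,
          not_or] at hx ⊢
        exact ⟨⟨hx.1, fun c => (hx.2 c).1⟩, fun c => (hx.2 c).2⟩
    · refine ⟨fun _ => ∅, fun _ => empty_subset _, fun _ _ _ => by simp, fun _ _ => by simp, ?_⟩
      exact (card_le_card sdiff_subset).trans (not_lt.mp hA)

end Extract

variable {α Q : Type*} [Fintype α] [DecidableEq α]

/-- mean zero functions of degree at most `d` -/
def K (α : Type*) [Fintype α] [DecidableEq α] (d : ℕ) : Submodule ℝ ((α → Bool) → ℝ) where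
  carrier := {f | f ∈ V α d ∧ E f = 0}
  add_mem' := by
    rintro f g ⟨hf1, hf2⟩ ⟨hg1, hg2⟩
    refine ⟨(V α d).add_mem hf1 hg1, ?_⟩
    have := E_add f g
    rw [hf2, hg2, add_zero] at this
    exact this
  zero_mem' := ⟨(V α d).zero_mem, E_zero⟩
  smul_mem' := by
    rintro c f ⟨hf1, hf2⟩
    refine ⟨(V α d).smul_mem c hf1, ?_⟩
    have := E_cmul c f
    rw [hf2, mul_zero] at this
    exact this

/-- number of high degree characters -/
def hi (α : Type*) [Fintype α] (d : ℕ) : ℕ := (univ.filter fun T : Finset α => d < T.card).card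

/-- size above which a set of points contains a coloured trade -/
def thr (α : Type*) [Fintype α] (d q : ℕ) : ℕ :=
  3 * (5 * q ^ 2 * (Fintype.card α + 1) ^ 2) * ((hi α d + 1) * (Fintype.card α + 2))

def chiZ (S : Finset α) (x : α → Bool) : ℤ := ∏ i ∈ S, if x i then -1 else 1

omit [Fintype α] [DecidableEq α] in
lemma chiZ_cast (S : Finset α) (x : α → Bool) : (chiZ S x : ℝ) = chi S x := by
  simp [chiZ, chi, sg]

omit [Fintype α] [DecidableEq α] in
lemma abs_chiZ (S : Finset α) (x : α → Bool) : |chiZ S x| = 1 := by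
  unfold chiZ
  rw [abs_prod]
  refine prod_eq_one fun i _ => ?_
  split_ifs <;> simp

lemma trade [Fintype Q] [Nonempty Q] (d : ℕ) (A : Finset (α → Bool))
    (hA : thr α d (Fintype.card Q) < A.card) :
    ∃ U : Q → Finset (α → Bool), (∀ c, U c ⊆ A) ∧
      (∀ c, (U c).Nonempty) ∧ (∀ c c', c ≠ c' → Disjoint (U c) (U c')) ∧
      ∀ c c', ind (U c) - ind (U c') ∈ K α d := by
  set g := Fintype.card α with hg
  set m := hi α d with hm
  set l := (m + 1) * (g + 2) with hl
  set R := 5 * Fintype.card Q ^ 2 * (g + 1) ^ 2 with hR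
  have hq : 0 < Fintype.card Q := Fintype.card_pos
  have hR0 : 0 < R := by positivity
  have hl0 : 0 < l := by positivity
  have hA1 : 3 * R * l < A.card := hA
  have hA2 : A.card ≤ 2 ^ g := by simpa using card_le_univ A
  have hlA : l ≤ 2 ^ g := by nlinarith
  let Φ : Finset (α → Bool) → ({T : Finset α // d < T.card} → ℤ) :=
    fun U T => ∑ x ∈ U, chiZ T.1 x
  let box : Finset ({T : Finset α // d < T.card} → ℤ) :=
    Fintype.piFinset fun _ => Icc (-(l : ℤ)) l
  have hmaps : ∀ U ∈ powersetCard l A, Φ U ∈ box := by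
    intro U hU
    rw [Fintype.mem_piFinset]
    intro T
    rw [mem_Icc, ← abs_le]
    refine (abs_sum_le_sum_abs _ _).trans ?_
    simp [abs_chiZ, (mem_powersetCard.mp hU).2]
  have hbox : box.card ≤ 2 ^ l := by
    have e1 : box.card = (2 * l + 1) ^ m := by
      rw [Fintype.card_piFinset]
      simp only [Int.card_Icc, prod_const, card_univ]
      congr 1
      · omega
      · rw [Fintype.card_subtype]; rfl
    have e2 : 2 * l + 1 ≤ 2 ^ (g + 2) := by
      have : 1 ≤ 2 ^ g := Nat.one_le_two_pow
      rw [pow_add]; omega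
    calc box.card ≤ (2 ^ (g + 2)) ^ m := e1 ▸ Nat.pow_le_pow_left e2 m
      _ = 2 ^ ((g + 2) * m) := by rw [← pow_mul]
      _ ≤ 2 ^ l := Nat.pow_le_pow_right (by norm_num) (by rw [hl]; nlinarith)
  have hcount : box.card * R ^ l < (powersetCard l A).card := by
    rw [card_powersetCard]
    have h1 : (((A.card + 1 - l : ℕ) : ℝ)) ^ l / l.factorial ≤ A.card.choose l :=
      Nat.pow_le_choose l A.card
    have h2 : 2 * R * l < A.card + 1 - l := by
      have : l ≤ R * l := Nat.le_mul_of_pos_left _ hR0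
      have : 3 * R * l = 2 * R * l + R * l := by ring
      omega
    have h3 : (2 * R * l) ^ l < (A.card + 1 - l) ^ l := Nat.pow_lt_pow_left h2 hl0.ne'
    have h4 : l.factorial ≤ l ^ l := Nat.factorial_le_pow l
    have hf : (0 : ℝ) < l.factorial := by exact_mod_cast l.factorial_pos
    rw [div_le_iff₀ hf] at h1
    have h5 : (A.card + 1 - l) ^ l ≤ A.card.choose l * l.factorial := by exact_mod_cast h1
    have h6 : (2 ^ l * R ^ l) * l ^ l < A.card.choose l * l ^ l := by
      calc _ = (2 * R * l) ^ l := by rw [mul_pow (2 * R), mul_pow 2 R]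
        _ < _ := h3
        _ ≤ _ := h5
        _ ≤ _ := Nat.mul_le_mul_left _ h4
    have h7 := Nat.lt_of_mul_lt_mul_right h6
    exact lt_of_le_of_lt (Nat.mul_le_mul_right _ hbox) h7
  obtain ⟨y, -, hy⟩ := exists_lt_card_fiber_of_mul_lt_card_of_maps_to hmaps hcount
  obtain ⟨T, U, hU, hT, hdis⟩ := sunflower (Q := Q) ((powersetCard l A).filter fun U => Φ U = y)
    l (g + 1) (lt_of_le_of_lt hlA (Nat.pow_lt_pow_right (by norm_num) (by omega))) (by omega)
    (fun S hS => (mem_powersetCard.mp (mem_filter.mp hS).1).2) hy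
  have hU1 : ∀ c, U c ⊆ A := fun c => (mem_powersetCard.mp (mem_filter.mp (hU c).1).1).1
  have hU2 : ∀ c, (U c).card = l := fun c => (mem_powersetCard.mp (mem_filter.mp (hU c).1).1).2
  have hU3 : ∀ c, Φ (U c) = y := fun c => (mem_filter.mp (hU c).1).2
  refine ⟨fun c => U c \ T, fun c => sdiff_subset.trans (hU1 c), fun c => ?_, fun c c' h => ?_,
    fun c c' => ?_⟩
  · rw [← card_pos, card_sdiff_of_subset (hU c).2, hU2]; omega
  · have := hdis c c' h
    rw [disjoint_left] at this ⊢
    simp only [mem_sdiff] at this ⊢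
    exact this
  · have e : ind (U c \ T) - ind (U c' \ T) = ind (U c) - ind (U c') := by
      funext x
      simp only [ind, mem_sdiff, Pi.sub_apply]
      by_cases hx : x ∈ T
      · simp [hx, (hU c).2 hx, (hU c').2 hx]
      · simp [hx]
    rw [e]
    have hE : ∀ (W : Finset (α → Bool)) (f : (α → Bool) → ℝ),
        E (fun x => ind W x * f x) = (∑ x ∈ W, f x) / Fintype.card (α → Bool) := by
      intro W f
      simp only [E, ind, ite_mul, one_mul, zero_mul]
      rw [sum_ite_mem]; simp
    refine ⟨mem_V_iff.mpr fun S hS => ?_, ?_⟩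
    · simp only [hat, Pi.sub_apply, sub_mul, E_sub, hE]
      have h1 := congrFun ((hU3 c).trans (hU3 c').symm) ⟨S, hS⟩
      have h2 : ((∑ x ∈ U c, chiZ S x : ℤ) : ℝ) = ((∑ x ∈ U c', chiZ S x : ℤ) : ℝ) :=
        congrArg _ h1
      push_cast at h2
      simp only [chiZ_cast] at h2
      rw [h2, sub_self]
    · have h1 := hE (U c) fun _ => 1
      have h2 := hE (U c') fun _ => 1
      simp only [mul_one, sum_const, hU2] at h1 h2
      have := E_sub (ind (U c)) (ind (U c'))
      rw [show E (ind (U c)) = _ from h1, show E (ind (U c')) = _ from h2, sub_self] at this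
      exact this

lemma card_levels : ((univ : Finset (α → Bool)).image Ssum).card ≤ 2 * Fintype.card α + 1 := by
  have h : (univ : Finset (α → Bool)).image Ssum ⊆
      (Icc (-(Fintype.card α : ℤ)) (Fintype.card α)).image (fun z : ℤ => (z : ℝ)) := by
    intro s hs
    obtain ⟨x, -, rfl⟩ := mem_image.mp hs
    obtain ⟨z, hz⟩ := Ssum_int x
    have h1 := abs_Ssum_le x
    rw [hz] at h1 ⊢
    refine mem_image.mpr ⟨z, ?_, rfl⟩
    rw [mem_Icc, ← abs_le]
    exact_mod_cast h1
  refine (card_le_card h).trans (card_image_le.trans ?_)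
  rw [Int.card_Icc]
  omega

theorem colouring (α Q : Type*) [Fintype α] [DecidableEq α] [Fintype Q] [Nonempty Q] (d : ℕ) :
    ∃ (Y : Finset (α → Bool)) (ψ : (α → Bool) → Q),
      Yᶜ.card ≤ (2 * Fintype.card α + 1) * thr α d (Fintype.card Q) ∧
      ∀ β : ℝ → Q → ℝ,
        (fun a => if a ∈ Y then β (Ssum a) (ψ a) - E (β (Ssum a)) else 0) ∈ K α d := by
  classical
  have hex := fun s : ℝ => extract (Q := Q) (K α d) _ (trade d) (univ.filter fun x => Ssum x = s)
  choose C c1 c2 c3 c4 using hex
  let Y : Finset (α → Bool) := univ.filter fun a => ∃ c, a ∈ C (Ssum a) c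
  let ψ : (α → Bool) → Q := fun a =>
    if h : ∃ c, a ∈ C (Ssum a) c then h.choose else Classical.arbitrary Q
  have hψ : ∀ a ∈ Y, a ∈ C (Ssum a) (ψ a) := by
    intro a ha
    have h := (mem_filter.mp ha).2
    simp only [ψ, dif_pos h]
    exact h.choose_spec
  refine ⟨Y, ψ, ?_, ?_⟩
  · have h : Yᶜ ⊆ (univ.image (Ssum (ι := α))).biUnion fun s =>
        (univ.filter fun x => Ssum x = s) \ univ.biUnion (C s) := by
      intro a ha
      simp only [Y, mem_compl, mem_filter, mem_univ, true_and] at ha
      simp only [mem_biUnion, mem_image, mem_univ, true_and, mem_sdiff, mem_filter]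
      exact ⟨_, ⟨a, rfl⟩, rfl, ha⟩
    refine (card_le_card h).trans (card_biUnion_le.trans ?_)
    refine (sum_le_sum fun s _ => c4 s).trans ?_
    rw [sum_const, smul_eq_mul]
    exact Nat.mul_le_mul_right _ card_levels
  · intro β
    let c0 := Classical.arbitrary Q
    have hmem : (∑ s ∈ univ.image (Ssum (ι := α)), ∑ c : Q,
        (β s c - E (β s)) • (ind (C s c) - ind (C s c0))) ∈ K α d :=
      Submodule.sum_mem _ fun s _ => Submodule.sum_mem _ fun c _ =>
        Submodule.smul_mem _ _ (c3 s c c0)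
    convert hmem using 1
    funext a
    simp only [Finset.sum_apply, Pi.smul_apply, Pi.sub_apply, smul_eq_mul, mul_sub,
      sum_sub_distrib]
    have hz : ∀ s, ∑ c : Q, (β s c - E (β s)) * ind (C s c0) a = 0 := by
      intro s
      rw [← sum_mul, sum_sub_distrib]
      have : (Fintype.card Q : ℝ) ≠ 0 := by exact_mod_cast Fintype.card_ne_zero
      have e : ∑ _c : Q, E (β s) = ∑ c, β s c := by
        simp only [E, sum_const, card_univ, nsmul_eq_mul]; field_simp
      rw [e, sub_self, zero_mul]
    simp only [hz, sum_const_zero, sub_zero]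
    rw [sum_eq_single (Ssum a)]
    · split_ifs with ha
      · rw [sum_eq_single (ψ a)]
        · simp [ind, hψ a ha]
        · intro c _ hc
          have : a ∉ C (Ssum a) c := fun h => disjoint_left.mp (c2 _ _ _ hc) h (hψ a ha)
          simp [ind, this]
        · simp
      · symm
        refine sum_eq_zero fun c _ => ?_
        have : a ∉ C (Ssum a) c := fun h => ha (mem_filter.mpr ⟨mem_univ _, c, h⟩)
        simp [ind, this]
    · intro s _ hs
      refine sum_eq_zero fun c _ => ?_
      have : a ∉ C s c := fun h => hs (mem_filter.mp (c1 s c h)).2.symm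
      simp [ind, this]
    · simp

end Vale.Agent.P047
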