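import Vale.Agent.P047.Blocks

namespace Vale.Agent.P047

open Finset

variable {ι κ : Type*} [Fintype ι] [DecidableEq ι] [Fintype κ] [DecidableEq κ]

lemma partial_sum (n r : ℕ) :
    ∑ w ∈ range (r + 1), ((n : ℝ) - 2 * w) * n.choose w = ((n : ℝ) - r) * n.choose r := by
  induction r with
  | zero => simp
  | succ r ih =>
    rw [sum_range_succ, ih]
    have h : ((n.choose (r + 1) : ℕ) : ℝ) * (r + 1) = n.choose r * ((n : ℝ) - r) := by
      by_cases hr : r ≤ n
      · have := Nat.choose_succ_right_eq n r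
        rw [← Nat.cast_sub hr]
        exact_mod_cast this
      · rw [Nat.choose_eq_zero_of_lt (by omega), Nat.choose_eq_zero_of_lt (by omega)]
        simp
    push_cast
    linear_combination (-1 : ℝ) * h

lemma sum_Ssum (F : ℝ → ℝ) : ∑ x : ι → Bool, F (Ssum x) =
    ∑ w ∈ range (Fintype.card ι + 1), (Fintype.card ι).choose w * F (Fintype.card ι - 2 * w) := by
  have h1 := sum_powerset_apply_card (fun w : ℕ => F (Fintype.card ι - 2 * w))
    (x := (univ : Finset ι))
  simp only [powerset_univ, card_univ, nsmul_eq_mul] at h1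
  rw [← h1]
  refine sum_bij' (fun x _ => univ.filter fun i => x i = true) (fun T _ i => decide (i ∈ T))
    (by simp) (by simp) (fun x _ => by funext i; simp) (fun T _ => by ext i; simp) fun x _ => ?_
  congr 1
  simp only [Ssum, sg]
  have : ∀ i, (if x i = true then (-1 : ℝ) else 1) = 1 - 2 * if x i = true then 1 else 0 := by
    intro i; split_ifs <;> norm_num
  simp only [this, sum_sub_distrib, ← mul_sum, sum_boole]
  simp

lemma E_abs_Ssum (k : ℕ) (hk : Fintype.card ι = 2 * k) :
    2 * k * (k.centralBinom : ℝ) / 4 ^ k ≤ E (fun x : ι → Bool => |Ssum x|) := by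
  rw [E, sum_Ssum (fun s => |s|), Fintype.card_fun, Fintype.card_bool, hk]
  have e : ((2 ^ (2 * k) : ℕ) : ℝ) = 4 ^ k := by push_cast; rw [pow_mul]; norm_num
  rw [e]
  gcongr
  have h1 := partial_sum (2 * k) k
  have h2 := partial_sum (2 * k) (2 * k)
  have h3 : ∑ w ∈ range (k + 1), (((2 * k : ℕ) : ℝ) - 2 * w) * (2 * k).choose w =
      ∑ w ∈ range (2 * k + 1), if w < k + 1 then (((2 * k : ℕ) : ℝ) - 2 * w) * (2 * k).choose w
        else 0 := by
    rw [← sum_filter]
    congr 1
    ext w; simp only [mem_range, mem_filter]; omega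
  rw [sub_self, zero_mul] at h2
  have h4 : 2 * k * (k.centralBinom : ℝ) = ∑ w ∈ range (2 * k + 1),
      (2 * (if w < k + 1 then (((2 * k : ℕ) : ℝ) - 2 * w) * (2 * k).choose w else 0) -
        (((2 * k : ℕ) : ℝ) - 2 * w) * (2 * k).choose w) := by
    rw [sum_sub_distrib, ← mul_sum, ← h3, h1, h2, Nat.centralBinom_eq_two_mul_choose]
    push_cast; ring
  rw [h4]
  refine sum_le_sum fun w _ => ?_
  have h5 := le_abs_self (((2 * k : ℕ) : ℝ) - 2 * w)
  have h6 := neg_abs_le (((2 * k : ℕ) : ℝ) - 2 * w)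
  have h7 : (0 : ℝ) ≤ (2 * k).choose w := by positivity
  split_ifs <;> nlinarith

lemma cb_bound (k : ℕ) (hk : 8 ≤ k) : 0.61 * 16 ^ k ≤ 2 * k * (k.centralBinom : ℝ) ^ 2 := by
  induction k, hk using Nat.le_induction with
  | base => rw [show Nat.centralBinom 8 = 12870 by decide]; norm_num
  | succ k hk ih =>
    have h : ((k : ℝ) + 1) * (k + 1).centralBinom = 2 * (2 * k + 1) * k.centralBinom := by
      exact_mod_cast Nat.succ_mul_centralBinom_succ k
    have hk0 : (0 : ℝ) < k := by exact_mod_cast (by omega : 0 < k)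
    push_cast
    refine le_of_mul_le_mul_left ?_ (by positivity : (0 : ℝ) < k * (k + 1))
    have e : k * (k + 1) * (2 * (k + 1) * ((k + 1).centralBinom : ℝ) ^ 2) =
        (2 * k * (k.centralBinom : ℝ) ^ 2) * (4 * (2 * k + 1) ^ 2) := by
      linear_combination (2 * k * (((k : ℝ) + 1) * (k + 1).centralBinom +
        2 * (2 * k + 1) * k.centralBinom)) * h
    rw [e]
    refine le_trans ?_ (mul_le_mul_of_nonneg_right ih (by positivity))
    have : (0 : ℝ) < 16 ^ k := by positivity
    rw [pow_succ]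
    nlinarith

lemma E_abs_Ssum' (k : ℕ) (hk : Fintype.card ι = 2 * k) (h8 : 8 ≤ k) (s : ℝ)
    (hs2 : s ^ 2 = 2 * k) : 0.78 * s ≤ E (fun x : ι → Bool => |Ssum x|) := by
  refine le_trans ?_ (E_abs_Ssum k hk)
  refine le_of_sq_le_sq ?_ (by positivity)
  have h := cb_bound k h8
  have e : (16 : ℝ) ^ k = (4 ^ k) ^ 2 := by rw [← pow_mul, mul_comm, pow_mul]; norm_num
  rw [div_pow, le_div_iff₀ (by positivity), ← e, mul_pow, hs2]
  have h1 := mul_le_mul_of_nonneg_left h (by positivity : (0 : ℝ) ≤ 2 * k)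
  have : (0 : ℝ) ≤ k * 16 ^ k := by positivity
  nlinarith

/-- sum of the linear coefficients -/
noncomputable def Lin (f : (ι → Bool) → Bool) : ℝ := E fun x => sg (f x) * Ssum x

lemma Lin_eq (f : (ι → Bool) → Bool) : Lin f = ∑ i, hat (fun x => sg (f x)) {i} := by
  simp only [Lin, Ssum, mul_sum, hat, chi, prod_singleton]
  rw [E_sum]

lemma exists_F : ∃ (ι : Type) (_ : Fintype ι) (_ : DecidableEq ι) (F : (ι → Bool) → Bool) (d : ℕ)
    (s : ℝ), 200 ≤ s ∧ (fun x => sg (F x)) ∈ V ι d ∧ d ≤ 0.59 * s ^ 2 ∧ 0.778 * s ≤ Lin F := by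
  obtain ⟨ι₀, _, _, X₀, k, b, c, β, err, m2, a, hn, -, -, hX, hk, herr⟩ := Blk_final
  obtain ⟨ι, _, _, X, hι, hX, -⟩ := hX.copies 40000
  set s := Real.sqrt (Fintype.card ι) with hs
  have hs0 : 0 ≤ s := Real.sqrt_nonneg _
  have hs2 : s ^ 2 = Fintype.card ι := Real.sq_sqrt (by positivity)
  have hι' : (Fintype.card ι : ℝ) = 40000 * Fintype.card ι₀ := by rw [hι]; push_cast; rfl
  have hn' : (1 : ℝ) ≤ Fintype.card ι₀ := by exact_mod_cast hn
  refine ⟨ι, inferInstance, inferInstance, fun x => decide (X x < 0), 40000 * k, s, ?_,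
    hX.lev fun t => sg (decide (t < 0)), ?_, ?_⟩
  · refine le_of_sq_le_sq ?_ hs0
    rw [hs2, hι']; linarith
  · rw [hs2, hι']; push_cast; linarith
  · have h1 := E_abs_Ssum' (ι := ι) (20000 * Fintype.card ι₀) (by rw [hι]; ring) (by omega) s
      (by rw [hs2, hι']; push_cast; ring)
    have h2 : E (fun x => |X x - Ssum x|) ≤ s / 1000 := by
      refine E_abs_le _ (by positivity) (hX.err.trans ?_)
      rw [div_pow, hs2, hι']
      push_cast
      linarith
    have h3 : E (fun x => |Ssum x| - 2 * |X x - Ssum x|) ≤ Lin fun x => decide (X x < 0) := by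
      refine E_mono fun x => ?_
      have h5 := le_abs_self (X x - Ssum x)
      have h6 := neg_abs_le (X x - Ssum x)
      by_cases hx : X x < 0
      · simp only [hx, decide_true, sg, if_true]
        rcases abs_cases (Ssum x) with h | h <;> linarith [h.1, h.2]
      · simp only [hx, decide_false, sg]
        rcases abs_cases (Ssum x) with h | h <;> simp <;> linarith [h.1, h.2]
    rw [E_sub, E_cmul] at h3
    linarith

/-- balancing with one extra variable -/
def bal (F : (ι → Bool) → Bool) (x : ι ⊕ Unit → Bool) : Bool :=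
  if x (Sum.inr ()) then !F (fun i => !x (Sum.inl i)) else F (fun i => x (Sum.inl i))

lemma E_flip (f : (ι → Bool) → ℝ) : E (fun x : ι → Bool => f (fun i => !x i)) = E f :=
  E_equiv (Function.Involutive.toPerm (fun (x : ι → Bool) i => !x i)
    (fun x => by funext i; simp)) f

lemma E_unit (f : Bool → ℝ) : E (fun b : Unit → Bool => f (b ())) = (f true + f false) / 2 := by
  refine (E_equiv (Equiv.funUnique Unit Bool) f).trans ?_
  simp [E]

omit [DecidableEq ι] in
lemma Ssum_flip (x : ι → Bool) : Ssum (fun i => !x i) = - Ssum x := by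
  simp [Ssum, sg_not]

lemma E_bal (G : (ι → Bool) → Bool → ℝ) :
    E (fun x : ι ⊕ Unit → Bool => G (fun i => x (Sum.inl i)) (x (Sum.inr ()))) =
      (E (fun a : ι → Bool => G (fun i => !a i) true) + E (fun a => G a false)) / 2 := by
  rw [E_sumType (fun a (b : Unit → Bool) => G a (b ())), E_flip (fun a => G a true), ← E_add,
    div_eq_mul_inv, ← E_mulc]
  exact E_congr fun a => E_unit (G a)

lemma bal_spec {F : (ι → Bool) → Bool} {d : ℕ} (hF : (fun x => sg (F x)) ∈ V ι d) :
    (fun x => sg (bal F x)) ∈ V (ι ⊕ Unit) (d + 1) ∧ E (fun x => sg (bal F x)) = 0 ∧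
      Lin F - 1 ≤ Lin (bal F) := by
  refine ⟨?_, ?_, ?_⟩
  · have h1 := V_comp hF (Sum.inl : ι → ι ⊕ Unit)
    have h2 := V_subst (e := 1) hF (fun (y : ι ⊕ Unit → Bool) i => !y (Sum.inl i)) fun i => by
      simpa [sg_not] using V_cmul (-1) (V_coord (Sum.inl i : ι ⊕ Unit))
    rw [mul_one] at h2
    have h3 := V_coord (Sum.inr () : ι ⊕ Unit)
    have h5 := V_add h1 h2
    have h6 := V_mul h5 h3
    have h7 := V_sub h1 h2
    have h8 := V_mono (Nat.le_add_right d 1) h7
    have h9 := V_add h8 h6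
    have h4 := V_cmul (1 / 2) h9
    have e : (fun x => sg (bal F x)) = fun x : ι ⊕ Unit → Bool => 1 / 2 *
        ((sg (F fun i => x (Sum.inl i)) - sg (F fun i => !x (Sum.inl i))) +
        (sg (F fun i => x (Sum.inl i)) + sg (F fun i => !x (Sum.inl i))) * sg (x (Sum.inr ()))) := by
      funext x
      unfold bal
      cases x (Sum.inr ())
      · rw [if_neg (by simp), show sg false = 1 from rfl]; ring
      · rw [if_pos rfl, sg_not, show sg true = -1 from rfl]; ring
    rw [e]
    exact h4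
  · refine (E_bal fun a b => sg (if b then !F (fun i => !a i) else F a)).trans ?_
    simp only [if_true, Bool.false_eq_true, if_false, sg_not, Bool.not_not, E_neg]
    simp
  · have e : Lin (bal F) = E (fun x : ι ⊕ Unit → Bool => sg (bal F x) *
        (Ssum (fun i => x (Sum.inl i)) + sg (x (Sum.inr ())))) := by
      refine E_congr fun x => ?_
      rw [Ssum_sumType]
      simp [Ssum]
    rw [e]
    refine le_of_le_of_eq ?_ (E_bal fun a b => sg (if b then !F (fun i => !a i) else F a) *
      (Ssum a + sg b)).symm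
    simp only [if_true, Bool.false_eq_true, if_false, sg_not, Bool.not_not, Ssum_flip]
    have h1 : E (fun a => sg (F a) * Ssum a - 1) ≤ E (fun a => sg (F a) * (Ssum a + sg false)) := by
      refine E_mono fun a => ?_
      rw [show sg false = 1 from rfl]
      have := neg_abs_le (sg (F a))
      rw [abs_sg] at this
      linarith
    have h2 : E (fun a => -sg (F a) * (-Ssum a + sg true)) =
        E (fun a => sg (F a) * (Ssum a + sg false)) := by
      refine E_congr fun a => ?_
      rw [show sg false = 1 from rfl, show sg true = -1 from rfl]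
      ring
    rw [E_sub, E_const] at h1
    rw [h2]
    unfold Lin
    linarith

/-- block composition -/
def comp (f : (ι → Bool) → Bool) (g : (κ → Bool) → Bool) (y : ι × κ → Bool) : Bool :=
  f fun i => g fun k => y (i, k)

omit [Fintype ι] [DecidableEq ι] [Fintype κ] [DecidableEq κ] in
lemma comp_mem {f : (ι → Bool) → Bool} {g : (κ → Bool) → Bool} {d e : ℕ}
    (hf : (fun x => sg (f x)) ∈ V ι d) (hg : (fun x => sg (g x)) ∈ V κ e) :
    (fun x => sg (comp f g x)) ∈ V (ι × κ) (d * e) :=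
  V_subst hf (fun (y : ι × κ → Bool) i => g fun k => y (i, k)) fun i =>
    V_comp hg fun k => (i, k)

lemma Lin_comp (f : (ι → Bool) → Bool) (g : (κ → Bool) → Bool) (hg : E (fun x => sg (g x)) = 0) :
    Lin (comp f g) = Lin f * Lin g := by
  have key : ∀ (T : Finset ι) (i : ι), E (fun y : ι → κ → Bool =>
      chi T (fun i => g (y i)) * Ssum (y i)) = if T = {i} then Lin g else 0 := by
    intro T i
    have e : (fun y : ι → κ → Bool => chi T (fun i => g (y i)) * Ssum (y i)) =
        fun y => ∏ l, (fun l (z : κ → Bool) => (if l ∈ T then sg (g z) else 1) *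
          (if l = i then Ssum z else 1)) l (y l) := by
      funext y
      simp only [chi]
      rw [prod_mul_distrib, prod_ite_mem, prod_ite_eq']
      simp
    rw [e]
    refine (E_pi fun l (z : κ → Bool) => (if l ∈ T then sg (g z) else 1) *
          (if l = i then Ssum z else 1)).trans ?_
    split_ifs with h
    · subst h
      rw [prod_eq_single i]
      · simp [Lin]
      · intro l _ hl
        simp [hl, E_const]
      · simp
    · by_cases hi : i ∈ T
      · obtain ⟨l, hl, hli⟩ : ∃ l ∈ T, l ≠ i := by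
          by_contra hcon
          push Not at hcon
          exact h (eq_singleton_iff_unique_mem.mpr ⟨hi, hcon⟩)
        refine prod_eq_zero (mem_univ l) ?_
        simpa [hl, hli] using hg
      · refine prod_eq_zero (mem_univ i) ?_
        simpa [hi] using (E_Ssum (ι := κ))
  have e1 : Lin (comp f g) = E (fun y : ι → κ → Bool =>
      sg (f fun i => g (y i)) * ∑ i, Ssum (y i)) := by
    rw [← E_equiv (Equiv.curry ι κ Bool)]
    refine E_congr fun y => ?_
    simp only [Ssum, Fintype.sum_prod_type]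
    rfl
  rw [e1, Lin_eq f, sum_mul]
  simp only [mul_sum]
  rw [E_sum]
  refine sum_congr rfl fun i _ => ?_
  rw [E_congr (g := fun y : ι → κ → Bool => ∑ T, hat (fun x => sg (f x)) T *
    (chi T (fun i => g (y i)) * Ssum (y i))) (fun y => by
      rw [inversion (fun x => sg (f x)), sum_mul]; simp only [mul_assoc]), E_sum]
  simp only [E_cmul, key]
  simp

theorem exists_base : ∃ (D : ℕ) (L : ℝ), 2 ≤ D ∧ 0 < L ∧ (D : ℝ) < L ^ 2 ∧ ∀ r : ℕ,
    ∃ (ι : Type) (_ : Fintype ι) (_ : DecidableEq ι) (f : (ι → Bool) → Bool),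
      0 < Fintype.card ι ∧ (fun x => sg (f x)) ∈ V ι (D ^ r) ∧ Lin f = L ^ r := by
  obtain ⟨κ, _, _, F, d, s, hs, hF, hd, hL⟩ := exists_F
  obtain ⟨h1, h2, h3⟩ := bal_spec hF
  have hL1 : 0.768 * s ≤ Lin (bal F) := by linarith
  refine ⟨d + 2, Lin (bal F), by omega, by linarith, ?_, fun r => ?_⟩
  · have := pow_le_pow_left₀ (by linarith) (show 0.778 * s - 1 ≤ Lin (bal F) by linarith) 2
    push_cast
    nlinarith
  · induction r with
    | zero =>
      refine ⟨Unit, inferInstance, inferInstance, fun x => x (), by simp, V_coord (), ?_⟩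
      simp [Lin, Ssum, sg_mul_self, E_const]
    | succ r ih =>
      obtain ⟨ι, _, _, f, hι, hf, hLf⟩ := ih
      refine ⟨ι × (κ ⊕ Unit), inferInstance, inferInstance, comp f (bal F), by simpa using hι,
        comp_mem hf (V_mono (by omega) h1), ?_⟩
      rw [Lin_comp _ _ h2, hLf, pow_succ]

theorem exists_fin : ∃ (D : ℕ) (L : ℝ), 2 ≤ D ∧ 0 < L ∧ (D : ℝ) < L ^ 2 ∧ ∀ r : ℕ,
    ∃ (n : ℕ) (f : (Fin n → Bool) → Bool),
      1 ≤ n ∧ (fun x => sg (f x)) ∈ V (Fin n) (D ^ r) ∧ Lin f = L ^ r := by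
  obtain ⟨D, L, h1, h2, h3, h⟩ := exists_base
  refine ⟨D, L, h1, h2, h3, fun r => ?_⟩
  obtain ⟨ι, _, _, f, hι, hf, hL⟩ := h r
  let e := Fintype.equivFin ι
  refine ⟨Fintype.card ι, fun y => f fun i => y (e i), hι, V_comp hf e, ?_⟩
  rw [← hL]
  unfold Lin
  rw [← E_equiv (Equiv.arrowCongr e.symm (Equiv.refl Bool))]
  refine E_congr fun y => ?_
  congr 1
  simp only [Ssum]
  exact (Equiv.sum_comp e fun j => sg (y j)).symm

theorem growth : ∃ ε : ℝ, 0 < ε ∧ ∃ c : ℝ, 0 < c ∧ ∀ d : ℕ, 1 ≤ d →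
    ∃ (n : ℕ) (f : (Fin n → Bool) → Bool),
      1 ≤ n ∧ (fun x => sg (f x)) ∈ V (Fin n) d ∧ c * (d : ℝ) ^ (1 / 2 + ε) ≤ Lin f := by
  obtain ⟨D, L, h1, h2, h3, h⟩ := exists_fin
  have hD : (1 : ℝ) < D := by exact_mod_cast h1
  have hlog := Real.log_pos hD
  have hDL : (D : ℝ) ^ (Real.log L / Real.log D) = L := Real.rpow_logb (by linarith) hD.ne' h2
  have hε : 0 < Real.log L / Real.log D - 1 / 2 := by
    have := Real.log_lt_log (by linarith) h3
    rw [Real.log_pow] at this
    rw [sub_pos, lt_div_iff₀ hlog]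
    push_cast at this
    linarith
  refine ⟨_, hε, 1 / L, by positivity, fun d hd => ?_⟩
  obtain ⟨n, f, hn, hf, hL⟩ := h (Nat.log D d)
  refine ⟨n, f, hn, V_mono (Nat.pow_log_le_self D (by omega)) hf, ?_⟩
  have h4 : (d : ℝ) ≤ (D : ℝ) ^ (Nat.log D d + 1) := by
    exact_mod_cast (Nat.lt_pow_succ_log_self h1 d).le
  rw [hL, add_sub_cancel, one_div_mul_eq_div, div_le_iff₀ h2, ← pow_succ]
  refine (Real.rpow_le_rpow (by positivity) h4 (by linarith)).trans (le_of_eq ?_)
  rw [← Real.rpow_natCast, ← Real.rpow_mul (by linarith), mul_comm, Real.rpow_mul (by linarith),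
    hDL, Real.rpow_natCast]

end Vale.Agent.P047
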