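import Vale.Agent.P047.State

namespace Vale.Agent.P047

open Finset

variable {α κ : Type*} [Fintype α] [DecidableEq α] [Fintype κ] [DecidableEq κ]

lemma noise {Q : Type*} [Fintype Q] {d kB : ℕ} {XB : (κ → Bool) → ℝ}
    (hB : ∀ φ : ℝ → ℝ, (fun x => φ (XB x)) ∈ V κ kB)
    {Y : Finset (α → Bool)} {ψ : (α → Bool) → Q}
    (hY : ∀ β : ℝ → Q → ℝ,
      (fun a => if a ∈ Y then β (Ssum a) (ψ a) - E (β (Ssum a)) else 0) ∈ K α d)
    (β : ℝ → Q → ℝ) :
    (fun x : α ⊕ κ → Bool => if (fun i => x (Sum.inl i)) ∈ Y then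
      β (bsum Ssum XB x) (ψ fun i => x (Sum.inl i)) - E (β (bsum Ssum XB x)) else 0) ∈
      K (α ⊕ κ) (d + kB) := by
  constructor
  · exact V_split hB (fun a v => if a ∈ Y then β (Ssum a + v) (ψ a) - E (β (Ssum a + v)) else 0)
      fun v => (hY fun s c => β (s + v) c).1
  · unfold bsum
    rw [E_sumType (fun a b => if a ∈ Y then β (Ssum a + XB b) (ψ a) - E (β (Ssum a + XB b))
      else 0), E_comm]
    have : ∀ b : κ → Bool, E (fun a : α → Bool => if a ∈ Y then β (Ssum a + XB b) (ψ a) -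
        E (β (Ssum a + XB b)) else 0) = 0 := fun b => (hY fun s c => β (s + XB b) c).2
    simp only [this, E_zero]

lemma E_ind (Y : Finset (α → Bool)) :
    E (fun x : α ⊕ κ → Bool => if (fun i => x (Sum.inl i)) ∈ Y then (0 : ℝ) else 1) =
      Yᶜ.card / 2 ^ Fintype.card α := by
  rw [E_sumType (fun a (_ : κ → Bool) => if a ∈ Y then (0 : ℝ) else 1)]
  simp only [E_const]
  simp only [E, Fintype.card_fun, Fintype.card_bool]
  push_cast
  congr 1
  rw [sum_ite, sum_const_zero, zero_add, sum_const, nsmul_eq_mul, mul_one]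
  congr 2
  ext a; simp

lemma E_int {Ω : Type*} [Fintype Ω] [Nonempty Ω] (f : Ω → ℝ) (h : ∀ x, ∃ z : ℤ, f x = z) :
    ∃ z : ℤ, Fintype.card Ω * E f = z := by
  choose z hz using h
  refine ⟨∑ x, z x, ?_⟩
  have : (Fintype.card Ω : ℝ) ≠ 0 := by exact_mod_cast Fintype.card_ne_zero
  simp only [E, hz]
  push_cast
  field_simp

lemma E_abs_bdd {Ω : Type*} [Fintype Ω] [Nonempty Ω] (f : Ω → ℝ) {L : ℝ} (h : ∀ x, |f x| ≤ L) :
    |E f| ≤ L := by
  rw [abs_le]
  constructor
  · rw [← E_const (Ω := Ω) (-L)]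
    exact E_mono fun x => (abs_le.mp (h x)).1
  · rw [← E_const (Ω := Ω) L]
    exact E_mono fun x => (abs_le.mp (h x)).2

/-- centering a bounded low level function gives a state -/
lemma St_center {ι : Type*} [Fintype ι] [DecidableEq ι] {X : (ι → Bool) → ℝ} {k c : ℕ}
    {L err : ℝ} (hlev : ∀ φ : ℝ → ℝ, (fun x => φ (X x)) ∈ V ι k)
    (hint : ∀ x, ∃ z : ℤ, c * X x = z) (hb : ∀ x, |X x| ≤ L)
    (herr : E (fun x => (X x - Ssum x) ^ 2) ≤ err) :
    St (fun x => X x - E X) k (Fintype.card ι) (c * 2 ^ Fintype.card ι) (2 * L) err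
      (2 * err + 2 * Fintype.card ι) ((2 * L) ^ 4) := by
  have hbd : ∀ x, |X x - E X| ≤ 2 * L := by
    intro x
    refine (abs_sub _ _).trans ?_
    linarith [hb x, E_abs_bdd X hb]
  have he : E (fun x => (X x - E X - Ssum x) ^ 2) ≤ err := by
    have h1 := E_center (fun x => X x - Ssum x)
    rw [E_sub, E_Ssum, sub_zero] at h1
    refine le_trans (le_of_eq (E_congr fun x => ?_)) (h1.trans herr)
    show _ = (X x - Ssum x - E X) ^ 2
    ring
  refine ⟨fun φ => hlev fun t => φ (t - E X), V_top _, fun x => ?_, hbd, ?_, he, ?_, ?_⟩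
  · obtain ⟨z, hz⟩ := hint x
    obtain ⟨w, hw⟩ := E_int (fun x => c * X x) hint
    rw [E_cmul, Fintype.card_fun, Fintype.card_bool] at hw
    refine ⟨2 ^ Fintype.card ι * z - w, ?_⟩
    push_cast at hw ⊢
    rw [← hz, ← hw]
    show _ = 2 ^ Fintype.card ι * (c * X x) - 2 ^ Fintype.card ι * (c * E X)
    ring
  · rw [E_sub, E_const]
    exact sub_self _
  · have h1 : E (fun x => (X x - E X) ^ 2) ≤
        E (fun x => 2 * (X x - E X - Ssum x) ^ 2 + 2 * Ssum x ^ 2) :=
      E_mono fun x => by nlinarith [sq_nonneg (X x - E X - 2 * Ssum x)]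
    rw [E_add, E_cmul, E_cmul, E_Ssum_sq] at h1
    linarith
  · have h1 : E (fun x => (X x - E X) ^ 4) ≤ E (fun _ : ι → Bool => (2 * L) ^ 4) := by
      refine E_mono fun x => ?_
      have := pow_le_pow_left₀ (abs_nonneg _) (hbd x) 4
      rwa [← abs_pow, abs_of_nonneg (by positivity : 0 ≤ (X x - E X) ^ 4)] at this
    rw [E_const] at h1
    nlinarith [sq_nonneg (2 * err + 2 * (Fintype.card ι : ℝ))]

theorem round {XB : (κ → Bool) → ℝ} {kB b c : ℕ} {βB errB m2B aB : ℝ}
    (hA : St (Ssum (ι := α)) (Fintype.card α) b c (Fintype.card α) 0 (Fintype.card α)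
      (Fintype.card α))
    (hB : St XB kB b c βB errB m2B aB) (hc : 0 < c) (j J N d : ℕ) (hJ : 0 < J) (hN0 : 0 < N)
    (hN : Fintype.card α + βB ≤ N) :
    ∃ (X : (α ⊕ κ → Bool) → ℝ) (c' : ℕ) (β m2 a : ℝ), 0 < c' ∧
      St X (max (Fintype.card α + J * (3 ^ j * b)) (d + kB)) (Fintype.card (α ⊕ κ)) c' β
        (2 * ((Fintype.card α + aB + 3 * (Fintype.card α + m2B) ^ 2) / (3 * (N / 3 ^ j) ^ 2) +
          (N / 3 ^ j) ^ 2 / J + (N : ℝ) ^ 2 * (((2 * Fintype.card α + 1) *
            thr α d ((2 * (c * N) ^ 3 ^ j) ^ J) : ℕ) / 2 ^ Fintype.card α)) + 2 * errB) m2 a := by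
  classical
  set g := Fintype.card α with hg
  set D : ℕ := 3 ^ j with hD
  set q : ℕ := 2 * (c * N) ^ D with hq
  have hq0 : 0 < q := by positivity
  have : Nonempty (Fin q) := ⟨⟨0, hq0⟩⟩
  have hy := hA.add hB
  set y := bsum (Ssum (ι := α)) XB with hyd
  obtain ⟨Y, ψ, hYc, hY⟩ := colouring α (Fin J → Fin q) d
  have hN' : (0 : ℝ) < N := by exact_mod_cast hN0
  have hJ' : (0 : ℝ) < J := by exact_mod_cast hJ
  set L : ℝ := N / 3 ^ j with hL
  have hL0 : 0 < L := by positivity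
  let r : ℝ → ℝ := fun w => ((c * N : ℕ) : ℝ) ^ D * (1 + P j (w / N))
  let G : ℝ → (Fin J → Fin q) → ℝ := fun w z => L / J * Ssum (fun i => bt (r w) (z i))
  have hyN : ∀ x, |y x / N| ≤ 1 := by
    intro x
    rw [abs_div, abs_of_pos hN', div_le_one hN']
    exact (hy.bdd x).trans hN
  have hp : ∀ x, E (fun t : Fin q => sg (bt (r (y x)) t)) = P j (y x / N) := by
    intro x
    have hW : (0 : ℝ) < ((c * N : ℕ) : ℝ) ^ D := by positivity
    obtain ⟨z, hz⟩ := P_int j ((c * N : ℕ) : ℝ) (y x / N) (c * N : ℕ) (by simp) (by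
      obtain ⟨z, hz⟩ := hy.int x
      refine ⟨z, ?_⟩
      rw [← hz]; push_cast; field_simp)
    have hb := abs_le.mp (P_bounds j _ (hyN x)).1
    have hqr : (q : ℝ) = 2 * ((c * N : ℕ) : ℝ) ^ D := by rw [hq]; push_cast; ring
    rw [E_bt hq0 (r (y x)) (((c * N : ℕ) : ℤ) ^ D + z)]
    · rw [hqr]; simp only [r]; field_simp; ring
    · simp only [r]; rw [mul_add, hz]; push_cast; ring
    · exact mul_nonneg hW.le (by linarith)
    · rw [hqr]; simp only [r]; nlinarith
  let X : (α ⊕ κ → Bool) → ℝ := fun x =>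
    if (fun i => x (Sum.inl i)) ∈ Y then G (y x) (ψ fun i => x (Sum.inl i)) else 0
  have hlev : ∀ φ : ℝ → ℝ, (fun x => φ (X x)) ∈ V (α ⊕ κ) (max (g + J * (D * b)) (d + kB)) := by
    intro φ
    have h1 := (noise hB.lev hY fun w z => φ (G w z)).1
    let Φ : (Fin J → Bool) → ℝ := fun v => φ (L / J * Ssum v)
    have h2 : (fun x => ∑ S, hat Φ S * P j (y x / N) ^ S.card) ∈ V (α ⊕ κ) (J * (D * b)) := by
      refine V_sum _ fun S _ => V_cmul _ ?_
      have h3 : (fun x => P j (y x / N)) ∈ V (α ⊕ κ) (D * b) := by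
        have := P_mem j (V_cmul (1 / N : ℝ) hy.low)
        simpa only [one_div_mul_eq_div] using this
      have h4 := V_prod S (f := fun _ x => P j (y x / N)) fun _ _ => h3
      simp only [prod_const] at h4
      refine V_mono (Nat.mul_le_mul_right _ ?_) h4
      simpa using card_le_univ S
    have h3 : (fun x : α ⊕ κ → Bool => if (fun i => x (Sum.inl i)) ∈ Y then (1 : ℝ) else 0) ∈
        V (α ⊕ κ) g := V_comp (V_top fun a : α → Bool => if a ∈ Y then (1 : ℝ) else 0) Sum.inl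
    have h4 := V_mul h3 (V_sub h2 (V_const _ (φ 0)))
    have h5 := V_add (V_add (V_mono (le_max_left _ (d + kB)) h4) (V_mono (le_max_right _ _) h1))
      (V_const _ (φ 0))
    convert h5 using 2 with x
    simp only [X]
    split_ifs with hx
    · have := E_fun_comp (fun t : Fin q => bt (r (y x)) t) Φ
      rw [hp] at this
      rw [← this]
      simp only [Φ, G, ← hyd]
      ring
    · simp
  have hint : ∀ x, ∃ z : ℤ, ((D * J : ℕ) : ℝ) * X x = z := by
    intro x
    simp only [X]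
    split_ifs with hx
    · obtain ⟨z, hz⟩ := Ssum_int (fun i => bt (r (y x)) (ψ (fun i => x (Sum.inl i)) i))
      refine ⟨N * z, ?_⟩
      simp only [G, hz, hL, hD]
      push_cast
      field_simp
    · exact ⟨0, by simp⟩
  have hbd : ∀ x, |X x| ≤ L := by
    intro x
    simp only [X]
    split_ifs with hx
    · have := abs_Ssum_le (fun i => bt (r (y x)) (ψ (fun i => x (Sum.inl i)) i))
      simp only [G]
      rw [abs_mul, abs_of_pos (by positivity : 0 < L / J), div_mul_eq_mul_div, div_le_iff₀ hJ']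
      rw [Fintype.card_fin] at this
      exact mul_le_mul_of_nonneg_left this hL0.le
    · simpa using hL0.le
  have he1 : E (fun x => (X x - y x) ^ 2) ≤ (g + aB + 3 * (g + m2B) ^ 2) / (3 * L ^ 2) +
      L ^ 2 / J + (N : ℝ) ^ 2 * (((2 * g + 1) * thr α d (q ^ J) : ℕ) / 2 ^ g) := by
    have h1 := (noise hB.lev hY fun w z => (G w z - w) ^ 2).2
    have h2 : ∀ x, (X x - y x) ^ 2 ≤ (if (fun i => x (Sum.inl i)) ∈ Y then
        (G (y x) (ψ fun i => x (Sum.inl i)) - y x) ^ 2 - E (fun z => (G (y x) z - y x) ^ 2)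
        else 0) + ((1 / (3 * L ^ 2)) * y x ^ 4 + L ^ 2 / J +
        (N : ℝ) ^ 2 * if (fun i => x (Sum.inl i)) ∈ Y then 0 else 1) := by
      intro x
      simp only [X]
      split_ifs with hx
      · have h3 := E_est (ι := Fin J) (fun t : Fin q => bt (r (y x)) t) L (y x) (by simpa using hJ)
        rw [hp, Fintype.card_fin] at h3
        have h4 := P_sq_err j _ (hyN x)
        have e1 : (3 : ℝ) ^ j * (y x / N) = y x / L := by rw [hL]; field_simp
        rw [e1] at h4
        have e2 : (L * P j (y x / N) - y x) ^ 2 = L ^ 2 * (P j (y x / N) - y x / L) ^ 2 := by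
          field_simp
        have h5 : L ^ 2 * (P j (y x / N) - y x / L) ^ 2 ≤ L ^ 2 * ((y x / L) ^ 4 / 3) :=
          mul_le_mul_of_nonneg_left h4 (by positivity)
        have e3 : L ^ 2 * ((y x / L) ^ 4 / 3) = 1 / (3 * L ^ 2) * y x ^ 4 := by field_simp
        simp only [G]
        linarith
      · have h3 : |y x| ≤ N := (hy.bdd x).trans hN
        have h4 := pow_le_pow_left₀ (abs_nonneg _) h3 2
        rw [sq_abs] at h4
        have : 0 ≤ 1 / (3 * L ^ 2) * y x ^ 4 + L ^ 2 / J := by positivity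
        simp only [zero_sub, neg_sq]
        linarith
    refine (E_mono h2).trans ?_
    rw [E_add, E_add, E_add, E_cmul, E_cmul, E_const, E_ind]
    simp only [← hyd] at h1
    rw [h1, zero_add]
    have h3 := hy.mom4
    have h4 : (Yᶜ.card : ℝ) ≤ ((2 * g + 1) * thr α d (q ^ J) : ℕ) := by
      have : Fintype.card (Fin J → Fin q) = q ^ J := by simp
      rw [this] at hYc
      exact_mod_cast hYc
    gcongr
    rw [one_div_mul_eq_div]
    gcongr
  have he2 : E (fun x => (X x - Ssum x) ^ 2) ≤ 2 * ((g + aB + 3 * (g + m2B) ^ 2) / (3 * L ^ 2) +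
      L ^ 2 / J + (N : ℝ) ^ 2 * (((2 * g + 1) * thr α d (q ^ J) : ℕ) / 2 ^ g)) + 2 * errB := by
    have h1 : E (fun x => (X x - Ssum x) ^ 2) ≤
        E (fun x => 2 * (X x - y x) ^ 2 + 2 * (y x - Ssum x) ^ 2) :=
      E_mono fun x => by nlinarith [sq_nonneg (X x - 2 * y x + Ssum x)]
    rw [E_add, E_cmul, E_cmul] at h1
    have := hy.err
    linarith
  exact ⟨_, _, _, _, _, by positivity, St_center hlev hint hbd he2⟩

end Vale.Agent.P047
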