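import Vale.Agent.P047.Colour

namespace Vale.Agent.P047

open Finset

variable {ι κ : Type*} [Fintype ι] [DecidableEq ι] [Fintype κ] [DecidableEq κ]

structure St (X : (ι → Bool) → ℝ) (k b c : ℕ) (β err m2 a : ℝ) : Prop where
  lev : ∀ φ : ℝ → ℝ, (fun x => φ (X x)) ∈ V ι k
  low : X ∈ V ι b
  int : ∀ x, ∃ z : ℤ, c * X x = z
  bdd : ∀ x, |X x| ≤ β
  mean : E X = 0
  err : E (fun x => (X x - Ssum x) ^ 2) ≤ err
  mom2 : E (fun x => X x ^ 2) ≤ m2
  mom4 : E (fun x => X x ^ 4) ≤ a + 3 * m2 ^ 2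

/-- sum of two functions on disjoint blocks -/
def bsum (X : (ι → Bool) → ℝ) (Y : (κ → Bool) → ℝ) (x : ι ⊕ κ → Bool) : ℝ :=
  X (fun i => x (Sum.inl i)) + Y (fun k => x (Sum.inr k))

omit [DecidableEq ι] [DecidableEq κ] in
lemma bsum_Ssum : bsum (Ssum (ι := ι)) (Ssum (ι := κ)) = Ssum := by
  funext x; rw [Ssum_sumType]; rfl

omit [Fintype ι] [DecidableEq ι] in
/-- a function of `(a, Y b)` split along the values of `Y` -/
lemma split_vals (Y : (κ → Bool) → ℝ) (F : (ι → Bool) → ℝ → ℝ) (a : ι → Bool) (b : κ → Bool) :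
    F a (Y b) = ∑ v ∈ univ.image Y, F a v * (if Y b = v then 1 else 0) := by
  simp

omit [Fintype ι] [DecidableEq ι] in
lemma V_split {d k : ℕ} {Y : (κ → Bool) → ℝ} (hY : ∀ φ : ℝ → ℝ, (fun x => φ (Y x)) ∈ V κ k)
    (F : (ι → Bool) → ℝ → ℝ) (hF : ∀ v, (fun a => F a v) ∈ V ι d) :
    (fun x : ι ⊕ κ → Bool => F (fun i => x (Sum.inl i)) (Y (fun k => x (Sum.inr k)))) ∈
      V (ι ⊕ κ) (d + k) := by
  simp only [split_vals Y F]
  refine V_sum _ fun v _ => V_mul (V_comp (hF v) Sum.inl) ?_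
  exact V_comp (hY fun t => if t = v then 1 else 0) Sum.inr

lemma E_sq_add (f : (ι → Bool) → ℝ) (g : (κ → Bool) → ℝ) (hg : E g = 0) :
    E (fun x => bsum f g x ^ 2) = E (fun x => f x ^ 2) + E (fun x => g x ^ 2) := by
  unfold bsum
  rw [E_sumType (fun a b => (f a + g b) ^ 2)]
  have : ∀ a, E (fun b => (f a + g b) ^ 2) = f a ^ 2 + E (fun x => g x ^ 2) := by
    intro a
    rw [E_congr (g := fun b => f a ^ 2 + (2 * f a) * g b + g b ^ 2) (fun b => by ring),
      E_add, E_add, E_cmul, E_const, hg]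
    ring
  simp only [this]
  rw [E_add, E_const]

lemma E_four_add (f : (ι → Bool) → ℝ) (g : (κ → Bool) → ℝ) (hf : E f = 0) (hg : E g = 0) :
    E (fun x => bsum f g x ^ 4) = E (fun x => f x ^ 4) + E (fun x => g x ^ 4) +
      6 * E (fun x => f x ^ 2) * E (fun x => g x ^ 2) := by
  unfold bsum
  rw [E_sumType (fun a b => (f a + g b) ^ 4)]
  have : ∀ a, E (fun b => (f a + g b) ^ 4) = f a ^ 4 + (6 * E (fun x => g x ^ 2)) * f a ^ 2 +
      (4 * E (fun x => g x ^ 3)) * f a + E (fun x => g x ^ 4) := by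
    intro a
    rw [E_congr (g := fun b => f a ^ 4 + (4 * f a ^ 3) * g b + (6 * f a ^ 2) * g b ^ 2 +
      (4 * f a) * g b ^ 3 + g b ^ 4) (fun b => by ring),
      E_add, E_add, E_add, E_add, E_cmul, E_cmul, E_cmul, E_const, hg]
    ring
  simp only [this]
  rw [E_add, E_add, E_add, E_cmul, E_cmul, E_const, hf]
  ring

lemma St.add {X : (ι → Bool) → ℝ} {Y : (κ → Bool) → ℝ} {k k' b c : ℕ}
    {β err m2 a β' err' m2' a' : ℝ} (h : St X k b c β err m2 a) (h' : St Y k' b c β' err' m2' a') :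
    St (bsum X Y) (k + k') b c (β + β') (err + err') (m2 + m2') (a + a') := by
  refine ⟨fun φ => ?_, ?_, fun x => ?_, fun x => ?_, ?_, ?_, ?_, ?_⟩
  · exact V_split h'.lev (fun a v => φ (X a + v)) fun v => h.lev fun t => φ (t + v)
  · exact V_add (V_comp h.low Sum.inl) (V_comp h'.low Sum.inr)
  · obtain ⟨z, hz⟩ := h.int fun i => x (Sum.inl i)
    obtain ⟨w, hw⟩ := h'.int fun i => x (Sum.inr i)
    exact ⟨z + w, by rw [bsum, mul_add, hz, hw]; push_cast; rfl⟩
  · exact (abs_add_le _ _).trans (add_le_add (h.bdd _) (h'.bdd _))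
  · unfold bsum
    rw [E_sumType (fun a b => X a + Y b)]
    simp only [E_add, E_const]
    have h1 := h.mean
    have h2 := h'.mean
    rw [show E (fun b => Y b) = 0 from h2, show E (fun b => X b) = 0 from h1, add_zero]
  · have e : (fun x => (bsum X Y x - Ssum x) ^ 2) =
        fun x => bsum (fun a => X a - Ssum a) (fun b => Y b - Ssum b) x ^ 2 := by
      funext x
      rw [Ssum_sumType]
      simp only [bsum]
      ring
    rw [e, E_sq_add _ _ (by rw [E_sub, h'.mean, E_Ssum, sub_zero])]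
    exact add_le_add h.err h'.err
  · rw [E_sq_add _ _ h'.mean]
    exact add_le_add h.mom2 h'.mom2
  · rw [E_four_add _ _ h.mean h'.mean]
    have h1 := E_nonneg (f := fun x => X x ^ 2) fun x => sq_nonneg _
    have h2 := E_nonneg (f := fun x => Y x ^ 2) fun x => sq_nonneg _
    have h3 := mul_le_mul h.mom2 h'.mom2 h2 (h1.trans h.mom2)
    have := h.mom4
    have := h'.mom4
    nlinarith

lemma St.copies {ι₀ : Type} [Fintype ι₀] [DecidableEq ι₀] {X : (ι₀ → Bool) → ℝ} {k b c : ℕ}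
    {β err m2 a : ℝ} (h : St X k b c β err m2 a) (M : ℕ) :
    ∃ (ι : Type) (_ : Fintype ι) (_ : DecidableEq ι) (Y : (ι → Bool) → ℝ),
      Fintype.card ι = M * Fintype.card ι₀ ∧
      St Y (M * k) b c (M * β) (M * err) (M * m2) (M * a) ∧ (X = Ssum → Y = Ssum) := by
  induction M with
  | zero =>
    refine ⟨Empty, inferInstance, inferInstance, fun _ => 0, by simp, ?_, fun _ => ?_⟩
    · refine ⟨fun φ => V_const _ _, V_const _ _, fun x => ⟨0, by simp⟩, fun x => by simp,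
        E_zero, ?_, ?_, ?_⟩ <;> simp [Ssum, E_zero]
    · funext x; simp [Ssum]
  | succ M ih =>
    obtain ⟨ι, _, _, Y, hc, hY, hS⟩ := ih
    refine ⟨ι ⊕ ι₀, inferInstance, inferInstance, bsum Y X, ?_, ?_, fun hX => ?_⟩
    · rw [Fintype.card_sum, hc]; ring
    · have := hY.add h
      convert this using 1 <;> push_cast <;> ring
    · rw [hS hX, hX, bsum_Ssum]

lemma St_unit (b c : ℕ) (hb : 1 ≤ b) : St (Ssum (ι := Unit)) 1 b c 1 0 1 1 := by
  have h2 : ∀ x : Unit → Bool, Ssum x ^ 2 = 1 := by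
    intro x; simp [Ssum, sq, sg_mul_self]
  refine ⟨fun φ => by simpa using V_top (fun x : Unit → Bool => φ (Ssum x)),
    V_mono hb Ssum_mem, fun x => ?_, fun x => by simpa using abs_Ssum_le x, E_Ssum, ?_, ?_, ?_⟩
  · obtain ⟨z, hz⟩ := Ssum_int x
    exact ⟨c * z, by rw [hz]; push_cast; rfl⟩
  · simp [E_zero]
  · simp [h2, E_const]
  · have : ∀ x : Unit → Bool, Ssum x ^ 4 = 1 := by
      intro x; rw [show Ssum x ^ 4 = (Ssum x ^ 2) ^ 2 by ring, h2]; norm_num
    simp [this, E_const]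

lemma St_Ssum (g b c : ℕ) (hb : 1 ≤ b) :
    ∃ (α : Type) (_ : Fintype α) (_ : DecidableEq α), Fintype.card α = g ∧
      St (Ssum (ι := α)) g b c g 0 g g := by
  obtain ⟨α, _, _, Y, hc, hY, hS⟩ := (St_unit b c hb).copies g
  refine ⟨α, inferInstance, inferInstance, by simpa using hc, ?_⟩
  rw [hS rfl] at hY
  simpa using hY

/-- iterated cubic map -/
def P : ℕ → ℝ → ℝ
  | 0, t => t
  | j + 1, t => 3 * P j t - 4 * P j t ^ 3

lemma P_bounds (j : ℕ) (t : ℝ) (ht : |t| ≤ 1) :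
    |P j t| ≤ 1 ∧ |P j t| ≤ 3 ^ j * |t| ∧ |P j t - 3 ^ j * t| ≤ (3 ^ j * |t|) ^ 3 / 6 := by
  induction j with
  | zero => simp [P, ht]; positivity
  | succ j ih =>
    obtain ⟨h1, h2, h3⟩ := ih
    set u := P j t with hu
    have hu2 := abs_le.mp h1
    have e : P (j + 1) t = 3 * u - 4 * u ^ 3 := rfl
    refine ⟨?_, ?_, ?_⟩
    · rw [e, abs_le]
      constructor
      · nlinarith [mul_nonneg (by linarith : 0 ≤ 1 - u) (sq_nonneg (2 * u + 1))]
      · nlinarith [mul_nonneg (by linarith : 0 ≤ 1 + u) (sq_nonneg (2 * u - 1))]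
    · rw [e, show 3 * u - 4 * u ^ 3 = (3 - 4 * u ^ 2) * u by ring, abs_mul, pow_succ (3 : ℝ) j]
      have : |3 - 4 * u ^ 2| ≤ 3 := by
        rw [abs_le]; constructor <;> nlinarith
      have h0 := abs_nonneg u
      have := mul_le_mul this h2 h0 (by norm_num)
      linarith
    · rw [e, show 3 * u - 4 * u ^ 3 - 3 ^ (j + 1) * t = 3 * (u - 3 ^ j * t) + (-4) * u ^ 3 by ring]
      refine (abs_add_le _ _).trans ?_
      rw [abs_mul, abs_mul, abs_pow]
      have h4 : |u| ^ 3 ≤ (3 ^ j * |t|) ^ 3 := pow_le_pow_left₀ (abs_nonneg u) h2 3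
      have e2 : (3 ^ (j + 1) * |t|) ^ 3 / 6 = 3 * ((3 ^ j * |t|) ^ 3 / 6) + 4 * (3 ^ j * |t|) ^ 3 := by
        ring
      rw [e2]
      norm_num
      linarith

lemma P_sq_err (j : ℕ) (t : ℝ) (ht : |t| ≤ 1) :
    (P j t - 3 ^ j * t) ^ 2 ≤ (3 ^ j * t) ^ 4 / 3 := by
  obtain ⟨-, h2, h3⟩ := P_bounds j t ht
  have h4 : |P j t - 3 ^ j * t| ≤ 2 * (3 ^ j * |t|) := by
    refine (abs_sub _ _).trans ?_
    rw [abs_mul, abs_of_pos (by positivity : (0 : ℝ) < 3 ^ j)]
    linarith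
  have h5 := mul_le_mul h4 h3 (abs_nonneg _) (by positivity)
  rw [abs_mul_abs_self] at h5
  have e : (3 ^ j * t) ^ 4 = (3 ^ j * |t|) ^ 4 := by
    rw [mul_pow, mul_pow, ← abs_pow, abs_of_nonneg (by positivity : 0 ≤ t ^ 4)]
  rw [e, sq]
  linarith

omit [Fintype ι] [DecidableEq ι] in
lemma P_mem (j : ℕ) {b : ℕ} {y : (ι → Bool) → ℝ} (hy : y ∈ V ι b) :
    (fun x => P j (y x)) ∈ V ι (3 ^ j * b) := by
  induction j with
  | zero => simpa [P] using hy
  | succ j ih =>
    refine V_sub (V_cmul 3 (V_mono ?_ ih)) (V_cmul 4 ?_)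
    · rw [pow_succ]; nlinarith [Nat.zero_le (3 ^ j * b)]
    · have := V_mul (V_mul ih ih) ih
      refine V_mono (le_of_eq (by ring)) ?_ (a := 3 ^ j * b + 3 ^ j * b + 3 ^ j * b)
      convert this using 2
      ring

lemma P_int (j : ℕ) (W t : ℝ) (w : ℤ) (hw : W = w) (h : ∃ z : ℤ, W * t = z) :
    ∃ z : ℤ, W ^ 3 ^ j * P j t = z := by
  induction j with
  | zero => simpa [P] using h
  | succ j ih =>
    obtain ⟨z, hz⟩ := ih
    refine ⟨3 * (w ^ 3 ^ j) ^ 2 * z - 4 * z ^ 3, ?_⟩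
    push_cast
    rw [← hz, ← hw, pow_succ 3 j, pow_mul]
    simp only [P]
    ring

/-- a biased bit read off a uniform element of `Fin q` -/
noncomputable def bt {q : ℕ} (r : ℝ) (t : Fin q) : Bool := decide (¬ ((t : ℕ) : ℝ) < r)

lemma E_bt {q : ℕ} (hq : 0 < q) (r : ℝ) (z : ℤ) (hz : r = z) (h0 : 0 ≤ r) (h1 : r ≤ q) :
    E (fun t : Fin q => sg (bt r t)) = 2 * r / q - 1 := by
  obtain ⟨n, rfl⟩ : ∃ n : ℕ, z = n := Int.eq_ofNat_of_zero_le (by exact_mod_cast hz ▸ h0)
  have hr : r = n := by simpa using hz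
  have hn : n ≤ q := by exact_mod_cast hr ▸ h1
  have e : ∀ t : Fin q, sg (bt r t) = 2 * (if (t : ℕ) < n then 1 else 0) - 1 := by
    intro t
    by_cases h : (t : ℕ) < n
    · have : ((t : ℕ) : ℝ) < r := by rw [hr]; exact_mod_cast h
      simp [sg, bt, h, this]; norm_num
    · have : ¬ ((t : ℕ) : ℝ) < r := by rw [hr]; exact_mod_cast h
      simp only [sg, bt, h, this]; simp
  have hne : Nonempty (Fin q) := ⟨⟨0, hq⟩⟩
  simp only [e]
  rw [E_sub, E_cmul, E_const, E, sum_boole, Fin.card_filter_val_lt, min_eq_right hn, hr]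
  simp [mul_div_assoc]

lemma E_chi_comp {T : Type*} [Fintype T] [Nonempty T] (f : T → Bool) (S : Finset ι) :
    E (fun c : ι → T => chi S (fun i => f (c i))) = E (fun t => sg (f t)) ^ S.card := by
  have e : (fun c : ι → T => chi S (fun i => f (c i))) =
      fun c => ∏ i, (if i ∈ S then (fun t => sg (f t)) else fun _ => 1) (c i) := by
    funext x
    simp only [chi, ite_apply]
    rw [prod_ite_mem]; simp
  rw [e, E_pi]
  simp only [apply_ite E, E_const]
  rw [prod_ite_mem]; simp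

lemma E_fun_comp {T : Type*} [Fintype T] [Nonempty T] (f : T → Bool) (Φ : (ι → Bool) → ℝ) :
    E (fun c : ι → T => Φ (fun i => f (c i))) =
      ∑ S, hat Φ S * E (fun t => sg (f t)) ^ S.card := by
  rw [E_congr fun c : ι → T => inversion Φ (fun i => f (c i)), E_sum]
  simp only [E_cmul, E_chi_comp]

lemma E_est {T : Type*} [Fintype T] [Nonempty T] (f : T → Bool) (L y : ℝ)
    (hJ : 0 < Fintype.card ι) :
    E (fun c : ι → T => (L / Fintype.card ι * Ssum (fun i => f (c i)) - y) ^ 2) ≤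
      L ^ 2 / Fintype.card ι + (L * E (fun t => sg (f t)) - y) ^ 2 := by
  set p := E (fun t => sg (f t)) with hp
  set J : ℝ := (Fintype.card ι : ℝ) with hJd
  have hJ0 : 0 < J := by rw [hJd]; exact_mod_cast hJ
  have h1 : E (fun c : ι → T => Ssum (fun i => f (c i))) = J * p := by
    simp only [Ssum]
    rw [E_sum]
    have : ∀ i : ι, E (fun c : ι → T => sg (f (c i))) = p := by
      intro i
      have := E_chi_comp f ({i} : Finset ι)
      simpa [chi] using this
    simp [this, hJd]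
  have h2 : E (fun c : ι → T => Ssum (fun i => f (c i)) ^ 2) ≤ J + J ^ 2 * p ^ 2 := by
    simp only [Ssum, sq, sum_mul_sum]
    rw [E_sum]
    have : ∀ i : ι, E (fun c : ι → T => ∑ j, sg (f (c i)) * sg (f (c j))) ≤ 1 + J * (p * p) := by
      intro i
      rw [E_sum]
      have h3 : ∀ j : ι, E (fun c : ι → T => sg (f (c i)) * sg (f (c j))) ≤
          (if i = j then 1 else 0) + p * p := by
        intro j
        split_ifs with hij
        · subst hij
          simp only [sg_mul_self, E_const]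
          nlinarith [mul_self_nonneg p]
        · have := E_chi_comp f ({i, j} : Finset ι)
          simp only [chi, prod_pair hij, card_pair hij] at this
          rw [this, zero_add, sq]
      refine (sum_le_sum fun j _ => h3 j).trans ?_
      simp [sum_add_distrib, hJd]
    refine (sum_le_sum fun i _ => this i).trans (le_of_eq ?_)
    simp only [sum_const, card_univ, nsmul_eq_mul, ← hJd]
    ring
  rw [E_congr (g := fun c : ι → T => (L / J) ^ 2 * Ssum (fun i => f (c i)) ^ 2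
    - (2 * (L / J) * y) * Ssum (fun i => f (c i)) + y ^ 2) (fun c => by ring),
    E_add, E_sub, E_cmul, E_cmul, E_const, h1]
  have h4 := mul_le_mul_of_nonneg_left h2 (sq_nonneg (L / J))
  have e1 : (L / J) ^ 2 * (J + J ^ 2 * p ^ 2) = L ^ 2 / J + L ^ 2 * p ^ 2 := by field_simp
  have e2 : 2 * (L / J) * y * (J * p) = 2 * L * p * y := by field_simp
  rw [e1] at h4
  rw [e2]
  nlinarith

end Vale.Agent.P047
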