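import Mathlib

namespace Vale.Agent.P047

open Finset
open scoped Classical

section Spread

variable {X C : Type*} [Fintype X] [Fintype C]

/-- a fragment system for the colour set `Pv` -/
structure Sys (𝓕 : Finset (Finset X)) (B : Finset X → Finset X) (Pv : Finset C) (l : ℕ) (ε : ℝ)
    (Fr : (X → C) → Finset X → Finset X) (ok : (X → C) → Finset X → Prop) : Prop where
  dep : ∀ ω ω' : X → C, (∀ x, (ω x ∈ Pv ∨ ω' x ∈ Pv) → ω x = ω' x) → Fr ω = Fr ω' ∧ ok ω = ok ω'
  sub : ∀ ω S, ok ω S → Fr ω S ⊆ B S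
  mem : ∀ ω S, ok ω S → S ∈ 𝓕
  card : ∀ ω S, ok ω S → (Fr ω S).card ≤ l
  avoid : ∀ ω S, ok ω S → ∀ x ∈ Fr ω S, ω x ∉ Pv
  cover : ∀ ω S, ok ω S → ∃ S' ∈ 𝓕, ∀ x ∈ B S', x ∈ Fr ω S ∨ ω x ∈ Pv
  bad : (((univ ×ˢ 𝓕).filter fun p : (X → C) × Finset X => ¬ ok p.1 p.2).card : ℝ) ≤
    ε * (Fintype.card (X → C) * 𝓕.card)

omit [Fintype X] in
lemma exists_pick (Fr : Finset X → Finset X) (ok : Finset X → Prop) (W S : Finset X) :
    ∃ S₂, ok S → (ok S₂ ∧ Fr S₂ ⊆ W ∪ Fr S ∧
      ∀ S₃, ok S₃ → Fr S₃ ⊆ W ∪ Fr S → (Fr S₂ \ W).card ≤ (Fr S₃ \ W).card) := by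
  by_cases h : ok S
  · have hne : ∃ m, ∃ S₂, ok S₂ ∧ Fr S₂ ⊆ W ∪ Fr S ∧ (Fr S₂ \ W).card = m :=
      ⟨_, S, h, subset_union_right, rfl⟩
    obtain ⟨S₂, h1, h2, h3⟩ := Nat.find_spec hne
    refine ⟨S₂, fun _ => ⟨h1, h2, fun S₃ h4 h5 => ?_⟩⟩
    rw [h3]
    exact Nat.find_min' hne ⟨S₃, h4, h5, rfl⟩
  · exact ⟨S, fun h' => absurd h' h⟩

noncomputable def pick (Fr : Finset X → Finset X) (ok : Finset X → Prop) (W S : Finset X) :
    Finset X := (exists_pick Fr ok W S).choose

omit [Fintype X] in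
lemma pick_spec (Fr : Finset X → Finset X) (ok : Finset X → Prop) (W S : Finset X) (h : ok S) :
    ok (pick Fr ok W S) ∧ Fr (pick Fr ok W S) ⊆ W ∪ Fr S ∧
      ∀ S₃, ok S₃ → Fr S₃ ⊆ W ∪ Fr S → (Fr (pick Fr ok W S) \ W).card ≤ (Fr S₃ \ W).card :=
  (exists_pick Fr ok W S).choose_spec h

noncomputable def canon (Fr : Finset X → Finset X) (ok : Finset X → Prop) (Z : Finset X) :
    Finset X := if h : ∃ S, ok S ∧ Fr S ⊆ Z then Fr h.choose else ∅

noncomputable def cls (ω : X → C) (t : C) : Finset X := univ.filter fun x => ω x = t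

lemma card_agree (T : Finset X) (ω' : X → C) :
    (univ.filter fun ω : X → C => ∀ x, x ∉ T → ω x = ω' x).card ≤ Fintype.card C ^ T.card := by
  have h1 : (univ.filter fun ω : X → C => ∀ x, x ∉ T → ω x = ω' x) ⊆
      Fintype.piFinset fun x => if x ∈ T then (univ : Finset C) else {ω' x} := by
    intro ω hω
    simp only [mem_filter, mem_univ, true_and] at hω
    rw [Fintype.mem_piFinset]
    intro x
    split_ifs with hx
    · exact mem_univ _
    · rw [mem_singleton]; exact hω x hx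
  refine (card_le_card h1).trans (le_of_eq ?_)
  rw [Fintype.card_piFinset]
  simp only [apply_ite Finset.card, card_univ, card_singleton]
  rw [prod_ite]
  simp

lemma Sys.step {𝓕 : Finset (Finset X)} {B : Finset X → Finset X} {Pv : Finset C} {l : ℕ} {ε : ℝ}
    {Fr : (X → C) → Finset X → Finset X} {ok : (X → C) → Finset X → Prop}
    (h : Sys 𝓕 B Pv l ε Fr ok) {R : ℝ} (hR : 0 < R) (hρ : 4 * (Fintype.card C / R) ≤ 1)
    (hspread : ∀ T : Finset X, ((𝓕.filter fun S => T ⊆ B S).card : ℝ) * R ^ T.card ≤ 𝓕.card)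
    (t : C) (ht : t ∉ Pv) :
    ∃ Fr' ok', Sys 𝓕 B (insert t Pv) (l / 2) (ε + 4 * (Fintype.card C / R)) Fr' ok' := by
  let Fr' : (X → C) → Finset X → Finset X := fun ω S =>
    Fr ω (pick (Fr ω) (ok ω) (cls ω t) S) \ cls ω t
  let ok' : (X → C) → Finset X → Prop := fun ω S => ok ω S ∧ (Fr' ω S).card ≤ l / 2
  have hsub : ∀ ω S, ok ω S → Fr' ω S ⊆ Fr ω S := by
    intro ω S hS x hx
    have h1 := (pick_spec (Fr ω) (ok ω) (cls ω t) S hS).2.1
    have h2 := mem_sdiff.mp hx
    exact (mem_union.mp (h1 h2.1)).resolve_left h2.2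
  refine ⟨Fr', ok', ?_, ?_, ?_, ?_, ?_, ?_, ?_⟩
  · intro ω ω' hω
    obtain ⟨e1, e2⟩ := h.dep ω ω' fun x hx =>
      hω x (hx.imp mem_insert_of_mem mem_insert_of_mem)
    have e3 : cls ω t = cls ω' t := by
      ext x
      simp only [cls, mem_filter, mem_univ, true_and]
      constructor
      · intro hx
        rw [← hω x (Or.inl (by rw [hx]; exact mem_insert_self _ _)), hx]
      · intro hx
        rw [hω x (Or.inr (by rw [hx]; exact mem_insert_self _ _)), hx]
    have e4 : Fr' ω = Fr' ω' := by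
      funext S; simp only [Fr', e1, e2, e3]
    refine ⟨e4, ?_⟩
    funext S; simp only [ok', e2, e4]
  · exact fun ω S hS => (hsub ω S hS.1).trans (h.sub ω S hS.1)
  · exact fun ω S hS => h.mem ω S hS.1
  · exact fun ω S hS => hS.2
  · intro ω S hS x hx
    rw [mem_insert, not_or]
    refine ⟨?_, h.avoid ω S hS.1 x (hsub ω S hS.1 hx)⟩
    have := (mem_sdiff.mp hx).2
    simpa [cls] using this
  · intro ω S hS
    obtain ⟨S', hS', hc⟩ := h.cover ω _ (pick_spec (Fr ω) (ok ω) (cls ω t) S hS.1).1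
    refine ⟨S', hS', fun x hx => ?_⟩
    rcases hc x hx with h1 | h1
    · by_cases h2 : ω x = t
      · right; rw [h2]; exact mem_insert_self _ _
      · left; exact mem_sdiff.mpr ⟨h1, by simpa [cls] using h2⟩
    · exact Or.inr (mem_insert_of_mem h1)
  · set ρ : ℝ := Fintype.card C / R with hρd
    have hρ0 : 0 ≤ ρ := by positivity
    let Tset : (X → C) → Finset (Finset X) := fun ω' =>
      (canon (Fr ω') (ok ω') (cls ω' t)).powerset.filter fun T => l / 2 < T.card
    let box : (X → C) → Finset X → Finset ((X → C) × Finset X) := fun ω' T =>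
      (univ.filter fun ω : X → C => ∀ x, x ∉ T → ω x = ω' x) ×ˢ (𝓕.filter fun S => T ⊆ B S)
    have hincl : ((univ ×ˢ 𝓕).filter fun p : (X → C) × Finset X => ¬ ok' p.1 p.2) ⊆
        ((univ ×ˢ 𝓕).filter fun p : (X → C) × Finset X => ¬ ok p.1 p.2) ∪
          univ.biUnion fun ω' => (Tset ω').biUnion fun T => box ω' T := by
      rintro ⟨ω, S⟩ hp
      simp only [mem_filter, mem_product, mem_univ, true_and] at hp
      by_cases hok : ok ω S
      swap
      · exact mem_union_left _ (by simp [hp.1, hok])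
      refine mem_union_right _ ?_
      have hbig : l / 2 < (Fr' ω S).card := by
        by_contra hc
        exact hp.2 ⟨hok, not_lt.mp hc⟩
      set T := Fr' ω S with hT
      let ω' : X → C := fun x => if x ∈ T then t else ω x
      obtain ⟨e1, e2⟩ := h.dep ω ω' (by
        intro x hx
        by_cases hxT : x ∈ T
        · exfalso
          rcases hx with hx | hx
          · exact h.avoid ω S hok x (hsub ω S hok hxT) hx
          · simp only [ω', hxT, if_true] at hx
            exact ht hx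
        · simp [ω', hxT])
      have e3 : cls ω' t = cls ω t ∪ T := by
        ext x
        by_cases hxT : x ∈ T <;> simp [cls, ω', hxT]
      obtain ⟨p1, p2, p3⟩ := pick_spec (Fr ω) (ok ω) (cls ω t) S hok
      have hex : ∃ S₃, ok ω S₃ ∧ Fr ω S₃ ⊆ cls ω t ∪ T := by
        refine ⟨_, p1, fun x hx => ?_⟩
        by_cases hxW : x ∈ cls ω t
        · exact mem_union_left _ hxW
        · exact mem_union_right _ (mem_sdiff.mpr ⟨hx, hxW⟩)
      have hTc : T ⊆ canon (Fr ω') (ok ω') (cls ω' t) := by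
        rw [← e1, ← e2, e3, canon, dif_pos hex]
        obtain ⟨c1, c2⟩ := hex.choose_spec
        have c3 := p3 _ c1 (c2.trans (union_subset_union_right (hsub ω S hok)))
        have c4 : Fr ω hex.choose \ cls ω t ⊆ T := by
          intro x hx
          have := mem_sdiff.mp hx
          exact (mem_union.mp (c2 this.1)).resolve_left this.2
        have c5 := eq_of_subset_of_card_le c4 c3
        exact c5.symm.subset.trans sdiff_subset
      simp only [mem_biUnion, mem_univ, true_and]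
      refine ⟨ω', T, ?_, ?_⟩
      · simp only [Tset, mem_filter, mem_powerset]
        exact ⟨hTc, hbig⟩
      · simp only [box, mem_product, mem_filter, mem_univ, true_and]
        refine ⟨fun x hx => by simp [ω', hx], hp.1, (hsub ω S hok).trans (h.sub ω S hok)⟩
    have hbox : ∀ ω' T, T ∈ Tset ω' → ((box ω' T).card : ℝ) ≤ ρ ^ (l / 2 + 1) * 𝓕.card := by
      intro ω' T hT
      have hT2 := (mem_filter.mp hT).2
      have a1 : ((univ.filter fun ω : X → C => ∀ x, x ∉ T → ω x = ω' x).card : ℝ) ≤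
          (Fintype.card C : ℝ) ^ T.card := by exact_mod_cast card_agree T ω'
      have a2 : ((𝓕.filter fun S => T ⊆ B S).card : ℝ) ≤ 𝓕.card / R ^ T.card := by
        rw [le_div_iff₀ (by positivity)]; exact hspread T
      simp only [box, card_product]
      push_cast
      calc _ ≤ (Fintype.card C : ℝ) ^ T.card * (𝓕.card / R ^ T.card) :=
            mul_le_mul a1 a2 (by positivity) (by positivity)
        _ = ρ ^ T.card * 𝓕.card := by rw [hρd, div_pow]; ring
        _ ≤ _ := mul_le_mul_of_nonneg_right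
            (pow_le_pow_of_le_one hρ0 (by linarith) (by omega)) (by positivity)
    have hTs : ∀ ω', ((Tset ω').card : ℝ) ≤ 4 ^ (l / 2 + 1) := by
      intro ω'
      have a1 : (canon (Fr ω') (ok ω') (cls ω' t)).card ≤ l := by
        unfold canon
        split_ifs with hex
        · exact h.card _ _ hex.choose_spec.1
        · simp
      have a2 : (Tset ω').card ≤ 4 ^ (l / 2 + 1) := by
        refine (card_filter_le _ _).trans ?_
        rw [card_powerset]
        calc _ ≤ 2 ^ (2 * (l / 2 + 1)) := Nat.pow_le_pow_right (by norm_num) (by omega)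
          _ = _ := by rw [pow_mul]; norm_num
      exact_mod_cast a2
    have hsum : ((univ.biUnion fun ω' => (Tset ω').biUnion fun T => box ω' T).card : ℝ) ≤
        4 * ρ * (Fintype.card (X → C) * 𝓕.card) := by
      have a1 : (univ.biUnion fun ω' => (Tset ω').biUnion fun T => box ω' T).card ≤
          ∑ ω' : X → C, ∑ T ∈ Tset ω', (box ω' T).card :=
        card_biUnion_le.trans (sum_le_sum fun _ _ => card_biUnion_le)
      have a2 : ∀ ω' : X → C, ∑ T ∈ Tset ω', ((box ω' T).card : ℝ) ≤ 4 * ρ * 𝓕.card := by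
        intro ω'
        refine (sum_le_sum fun T hT => hbox ω' T hT).trans ?_
        rw [sum_const, nsmul_eq_mul, ← mul_assoc]
        refine mul_le_mul_of_nonneg_right ?_ (by positivity)
        calc _ ≤ 4 ^ (l / 2 + 1) * ρ ^ (l / 2 + 1) :=
              mul_le_mul_of_nonneg_right (hTs ω') (by positivity)
          _ = (4 * ρ) ^ (l / 2 + 1) := by rw [mul_pow]
          _ ≤ (4 * ρ) ^ 1 := pow_le_pow_of_le_one (by positivity) hρ (by omega)
          _ = _ := pow_one _
      calc _ ≤ ∑ ω' : X → C, ∑ T ∈ Tset ω', ((box ω' T).card : ℝ) := by exact_mod_cast a1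
        _ ≤ ∑ _ω' : X → C, 4 * ρ * 𝓕.card := sum_le_sum fun ω' _ => a2 ω'
        _ = _ := by simp; ring
    have hfin := (card_le_card hincl).trans (card_union_le _ _)
    have hfin' : (((univ ×ˢ 𝓕).filter fun p : (X → C) × Finset X => ¬ ok' p.1 p.2).card : ℝ) ≤
        (((univ ×ˢ 𝓕).filter fun p : (X → C) × Finset X => ¬ ok p.1 p.2).card : ℝ) +
        ((univ.biUnion fun ω' => (Tset ω').biUnion fun T => box ω' T).card : ℝ) := by
      exact_mod_cast hfin
    have := h.bad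
    have hfin2 : (((univ ×ˢ 𝓕).filter fun p : (X → C) × Finset X => ¬ ok' p.1 p.2).card : ℝ) ≤
        (ε + 4 * ρ) * (Fintype.card (X → C) * 𝓕.card) := by linarith
    convert hfin2

lemma exists_sys (𝓕 : Finset (Finset X)) (B : Finset X → Finset X) (l : ℕ)
    (hl : ∀ S ∈ 𝓕, (B S).card ≤ l) {R : ℝ} (hR : 0 < R) (hρ : 4 * (Fintype.card C / R) ≤ 1)
    (hspread : ∀ T : Finset X, ((𝓕.filter fun S => T ⊆ B S).card : ℝ) * R ^ T.card ≤ 𝓕.card)
    (Pv : Finset C) :
    ∃ Fr ok, Sys 𝓕 B Pv (l / 2 ^ Pv.card) (Pv.card * (4 * (Fintype.card C / R))) Fr ok := by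
  induction Pv using Finset.induction_on with
  | empty =>
    refine ⟨fun _ S => B S, fun _ S => S ∈ 𝓕, fun _ _ _ => ⟨rfl, rfl⟩, fun _ _ _ => subset_rfl,
      fun _ _ h => h, fun _ S h => by simpa using hl S h, fun _ _ _ _ _ => by simp,
      fun _ S h => ⟨S, h, fun x hx => Or.inl hx⟩, ?_⟩
    refine le_of_eq_of_le (b := 0) ?_ (by simp)
    rw [Nat.cast_eq_zero, card_eq_zero]
    ext p
    simp
  | insert t Pv ht ih =>
    obtain ⟨Fr, ok, h⟩ := ih
    obtain ⟨Fr', ok', h'⟩ := h.step hR hρ hspread t ht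
    refine ⟨Fr', ok', ?_⟩
    rw [card_insert_of_notMem ht, pow_succ, ← Nat.div_div_eq_div_mul]
    convert h' using 1
    push_cast; ring

lemma spread_cover (𝓕 : Finset (Finset X)) (h𝓕 : 𝓕.Nonempty) (B : Finset X → Finset X) (l : ℕ)
    (hl : ∀ S ∈ 𝓕, (B S).card ≤ l) {R : ℝ} (hR : 0 < R) (hρ : 4 * (Fintype.card C / R) ≤ 1)
    (hspread : ∀ T : Finset X, ((𝓕.filter fun S => T ⊆ B S).card : ℝ) * R ^ T.card ≤ 𝓕.card)
    (Pv : Finset C) (hPv : l < 2 ^ Pv.card) :
    ((univ.filter fun ω : X → C => ¬ ∃ S ∈ 𝓕, ∀ x ∈ B S, ω x ∈ Pv).card : ℝ) ≤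
      Pv.card * (4 * (Fintype.card C / R)) * Fintype.card (X → C) := by
  obtain ⟨Fr, ok, h⟩ := exists_sys 𝓕 B l hl hR hρ hspread Pv
  rw [Nat.div_eq_of_lt hPv] at h
  have hincl : (univ.filter fun ω : X → C => ¬ ∃ S ∈ 𝓕, ∀ x ∈ B S, ω x ∈ Pv) ×ˢ 𝓕 ⊆
      (univ ×ˢ 𝓕).filter fun p : (X → C) × Finset X => ¬ ok p.1 p.2 := by
    rintro ⟨ω, S⟩ hp
    simp only [mem_product, mem_filter, mem_univ, true_and] at hp ⊢
    refine ⟨hp.2, fun hok => hp.1 ?_⟩
    obtain ⟨S', hS', hc⟩ := h.cover ω S hok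
    have h0 : Fr ω S = ∅ := card_eq_zero.mp (Nat.le_zero.mp (h.card ω S hok))
    refine ⟨S', hS', fun x hx => (hc x hx).resolve_left ?_⟩
    rw [h0]; simp
  have h1 := card_le_card hincl
  rw [card_product] at h1
  have h2 : ((univ.filter fun ω : X → C => ¬ ∃ S ∈ 𝓕, ∀ x ∈ B S, ω x ∈ Pv).card : ℝ) * 𝓕.card ≤
      (((univ ×ˢ 𝓕).filter fun p : (X → C) × Finset X => ¬ ok p.1 p.2).card : ℝ) := by
    exact_mod_cast h1
  have h3 := h2.trans h.bad
  rw [← mul_assoc] at h3
  exact le_of_mul_le_mul_right h3 (by exact_mod_cast h𝓕.card_pos)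

end Spread

/-- sunflower lemma with a polylogarithmic base -/
theorem sunflower {X Q : Type*} [Fintype X] [Fintype Q] [Nonempty Q] (𝓖 : Finset (Finset X))
    (l J : ℕ) (hJ : l < 2 ^ J) (hJ0 : 0 < J) (hl : ∀ S ∈ 𝓖, S.card = l)
    (hbig : (5 * Fintype.card Q ^ 2 * J ^ 2) ^ l < 𝓖.card) :
    ∃ T : Finset X, ∃ U : Q → Finset X, (∀ i, U i ∈ 𝓖 ∧ T ⊆ U i) ∧ T.card < l ∧
      ∀ i j, i ≠ j → Disjoint (U i \ T) (U j \ T) := by
  set q := Fintype.card Q with hq
  have hq0 : 0 < q := Fintype.card_pos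
  set Rn : ℕ := 5 * q ^ 2 * J ^ 2 with hRn
  have hRn0 : 0 < Rn := by positivity
  obtain ⟨T, -, hT⟩ := exists_max_image (univ : Finset (Finset X))
    (fun T => (𝓖.filter fun S => T ⊆ S).card * Rn ^ T.card) univ_nonempty
  have h0 := hT ∅ (mem_univ _)
  simp only [empty_subset, filter_true, card_empty, pow_zero, mul_one] at h0
  set 𝓕 := 𝓖.filter fun S => T ⊆ S with h𝓕
  have hne : 𝓕.Nonempty := by
    rw [← card_pos]
    by_contra hc
    have : 𝓕.card = 0 := by omega
    rw [this] at h0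
    omega
  have hTl : T.card < l := by
    obtain ⟨S, hS⟩ := hne
    have hS' := mem_filter.mp hS
    have h1 : T.card ≤ l := hl S hS'.1 ▸ card_le_card hS'.2
    by_contra hc
    have h2 : T.card = l := by omega
    have h3 : 𝓕.card ≤ 1 := by
      rw [card_le_one]
      intro a ha b hb
      have ha' := mem_filter.mp ha
      have hb' := mem_filter.mp hb
      rw [← eq_of_subset_of_card_le ha'.2 (by rw [hl a ha'.1, h2]),
        ← eq_of_subset_of_card_le hb'.2 (by rw [hl b hb'.1, h2])]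
    rw [h2] at h0
    have : 𝓕.card * Rn ^ l ≤ 1 * Rn ^ l := Nat.mul_le_mul_right _ h3
    omega
  have hR : (0 : ℝ) < Rn := by exact_mod_cast hRn0
  have hspread : ∀ T' : Finset X,
      ((𝓕.filter fun S => T' ⊆ S \ T).card : ℝ) * (Rn : ℝ) ^ T'.card ≤ 𝓕.card := by
    intro T'
    rcases (𝓕.filter fun S => T' ⊆ S \ T).eq_empty_or_nonempty with h | ⟨S, hS⟩
    · rw [h]; simp
    have hdis : Disjoint T T' :=
      (disjoint_sdiff.mono_right (mem_filter.mp hS).2)
    have h1 := hT (T ∪ T') (mem_univ _)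
    rw [card_union_of_disjoint hdis, pow_add] at h1
    have h2 : (𝓕.filter fun S => T' ⊆ S \ T).card ≤ (𝓖.filter fun S => T ∪ T' ⊆ S).card := by
      apply card_le_card
      intro a ha
      simp only [h𝓕, mem_filter] at ha ⊢
      exact ⟨ha.1.1, union_subset ha.1.2 (ha.2.trans sdiff_subset)⟩
    have h3 : (𝓕.filter fun S => T' ⊆ S \ T).card * Rn ^ T'.card ≤ 𝓕.card := by
      apply Nat.le_of_mul_le_mul_right _ (pow_pos hRn0 T.card)
      calc _ = (𝓕.filter fun S => T' ⊆ S \ T).card * (Rn ^ T.card * Rn ^ T'.card) := by ring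
        _ ≤ _ := Nat.mul_le_mul_right _ h2
        _ ≤ _ := h1
    exact_mod_cast h3
  have hcard : (Fintype.card (Q × Fin J) : ℝ) / Rn = 1 / (5 * q * J) := by
    have : (0 : ℝ) < q := by exact_mod_cast hq0
    have : (0 : ℝ) < J := by exact_mod_cast hJ0
    rw [hRn, Fintype.card_prod, Fintype.card_fin, ← hq]
    push_cast
    field_simp
  have hq1 : (1 : ℝ) ≤ q := by exact_mod_cast hq0
  have hJ1 : (1 : ℝ) ≤ J := by exact_mod_cast hJ0
  have hρ : 4 * ((Fintype.card (Q × Fin J) : ℝ) / Rn) ≤ 1 := by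
    rw [hcard, mul_one_div, div_le_one (by positivity)]
    nlinarith
  let Pv : Q → Finset (Q × Fin J) := fun i => {i} ×ˢ univ
  have hPv : ∀ i, (Pv i).card = J := by intro i; simp [Pv]
  have hfail : ∀ i, ((univ.filter fun ω : X → Q × Fin J =>
      ¬ ∃ S ∈ 𝓕, ∀ x ∈ S \ T, ω x ∈ Pv i).card : ℝ) ≤
      4 / (5 * q) * Fintype.card (X → Q × Fin J) := by
    intro i
    have := spread_cover (C := Q × Fin J) 𝓕 hne (fun S => S \ T) l
      (fun S hS => (card_le_card sdiff_subset).trans (hl S (mem_filter.mp hS).1).le)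
      hR hρ hspread (Pv i) (by rw [hPv]; exact hJ)
    rw [hPv, hcard] at this
    have e : (J : ℝ) * (4 * (1 / (5 * q * J))) = 4 / (5 * q) := by field_simp
    rw [e] at this
    convert this
  have hex : ∃ ω : X → Q × Fin J, ∀ i, ∃ S ∈ 𝓕, ∀ x ∈ S \ T, ω x ∈ Pv i := by
    by_contra hcon
    push Not at hcon
    have hincl : (univ : Finset (X → Q × Fin J)) ⊆ univ.biUnion fun i =>
        univ.filter fun ω : X → Q × Fin J => ¬ ∃ S ∈ 𝓕, ∀ x ∈ S \ T, ω x ∈ Pv i := by
      intro ω _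
      obtain ⟨i, hi⟩ := hcon ω
      simp only [mem_biUnion, mem_univ, true_and, mem_filter]
      refine ⟨i, ?_⟩
      push Not
      exact hi
    have h1 := (card_le_card hincl).trans card_biUnion_le
    have h2 : (Fintype.card (X → Q × Fin J) : ℝ) ≤ ∑ i : Q, ((univ.filter fun ω : X → Q × Fin J =>
      ¬ ∃ S ∈ 𝓕, ∀ x ∈ S \ T, ω x ∈ Pv i).card : ℝ) := by exact_mod_cast h1
    have h3 := h2.trans (sum_le_sum fun i _ => hfail i)
    simp only [sum_const, card_univ, nsmul_eq_mul, ← hq] at h3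
    have hne' : Nonempty (Q × Fin J) := ⟨(Classical.arbitrary Q, ⟨0, hJ0⟩)⟩
    have h4 : (0 : ℝ) < Fintype.card (X → Q × Fin J) := by exact_mod_cast Fintype.card_pos
    have e : (q : ℝ) * (4 / (5 * q) * Fintype.card (X → Q × Fin J)) =
        4 / 5 * Fintype.card (X → Q × Fin J) := by field_simp
    rw [e] at h3
    linarith
  obtain ⟨ω, hω⟩ := hex
  choose U hU1 hU2 using hω
  refine ⟨T, U, fun i => mem_filter.mp (hU1 i), hTl, fun i j hij => ?_⟩
  rw [disjoint_left]
  intro x hi hj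
  have a1 := hU2 i x hi
  have a2 := hU2 j x hj
  simp only [Pv, mem_product, mem_singleton, mem_univ, and_true] at a1 a2
  exact hij (a1.symm.trans a2)

end Vale.Agent.P047
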